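import Crest.Agent.R232.Geo

/-! The commutator estimate. -/

set_option autoImplicit false

namespace Crest.Agent.R232
open Finset

variable {E Ω : Type*} [Fintype E] [Fintype Ω]

lemma l2_pair (π : E → ℝ) (hπ : ∀ e, 0 ≤ π e) (hπ1 : ∑ e, π e = 1) (μ : Ω → ℝ)
    (hμ : ∀ ω, 0 ≤ μ ω) (K : E → E → ℝ)
    (hK : ∀ a : E → ℝ, ∑ e, π e * (∑ f, K e f * a f) ^ 2 ≤ ∑ e, π e * a e ^ 2)
    (S : ℕ) (a V : ℕ → E → Ω → ℝ) (β : ℕ → ℝ) (hβ : ∀ σ, 0 < β σ) (I T θ : ℝ) (hθ : 0 < θ)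
    (hI : ∀ e, ∑ ω, μ ω * ∑ σ ∈ range S, β σ * a σ e ω ^ 2 ≤ I)
    (hT : ∀ e, ∑ ω, μ ω * ∑ σ ∈ range S, V σ e ω ^ 2 / β σ ≤ T) :
    ∑ e, π e * ∑ ω, μ ω * ∑ σ ∈ range S, |∑ f, K e f * a σ f ω| * V σ e ω ≤
      (θ * I + T / θ) / 2 := by
  have h1 : ∀ e ω σ, |∑ f, K e f * a σ f ω| * V σ e ω ≤
      θ / 2 * (β σ * (∑ f, K e f * a σ f ω) ^ 2) + 1 / (2 * θ) * (V σ e ω ^ 2 / β σ) := by
    intro e ω σ
    rw [← sq_abs (∑ f, K e f * a σ f ω)]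
    obtain ⟨N, hN⟩ : ∃ N, N = |∑ f, K e f * a σ f ω| := ⟨_, rfl⟩
    rw [← hN]
    have hb := hβ σ
    have h2 : θ / 2 * (β σ * N ^ 2) + 1 / (2 * θ) * (V σ e ω ^ 2 / β σ) - N * V σ e ω =
        (θ * β σ * N - V σ e ω) ^ 2 / (2 * θ * β σ) := by
      field_simp; ring
    have h3 : 0 ≤ (θ * β σ * N - V σ e ω) ^ 2 / (2 * θ * β σ) := by positivity
    linarith
  have h2 : ∑ e, π e * ∑ ω, μ ω * ∑ σ ∈ range S, β σ * (∑ f, K e f * a σ f ω) ^ 2 ≤ I := by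
    have e1 : ∀ b : ℕ → E → Ω → ℝ, ∑ e, π e * ∑ ω, μ ω * ∑ σ ∈ range S, β σ * b σ e ω =
        ∑ ω, μ ω * ∑ σ ∈ range S, β σ * ∑ e, π e * b σ e ω := by
      intro b
      simp_rw [mul_sum]
      rw [sum_comm]
      refine sum_congr rfl fun ω _ => ?_
      rw [sum_comm]
      exact sum_congr rfl fun σ _ => sum_congr rfl fun e _ => by ring
    rw [e1 (fun σ e ω => (∑ f, K e f * a σ f ω) ^ 2)]
    calc _ ≤ ∑ ω, μ ω * ∑ σ ∈ range S, β σ * ∑ e, π e * a σ e ω ^ 2 :=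
          sum_le_sum fun ω _ => mul_le_mul_of_nonneg_left (sum_le_sum fun σ _ =>
            mul_le_mul_of_nonneg_left (hK _) (hβ σ).le) (hμ ω)
      _ = ∑ e, π e * ∑ ω, μ ω * ∑ σ ∈ range S, β σ * a σ e ω ^ 2 :=
          (e1 (fun σ e ω => a σ e ω ^ 2)).symm
      _ ≤ ∑ e, π e * I := sum_le_sum fun e _ => mul_le_mul_of_nonneg_left (hI e) (hπ e)
      _ = I := by rw [← sum_mul, hπ1, one_mul]
  have h3 : ∑ e, π e * ∑ ω, μ ω * ∑ σ ∈ range S, V σ e ω ^ 2 / β σ ≤ T :=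
    calc _ ≤ ∑ e, π e * T := sum_le_sum fun e _ => mul_le_mul_of_nonneg_left (hT e) (hπ e)
      _ = T := by rw [← sum_mul, hπ1, one_mul]
  calc _ ≤ ∑ e, π e * ∑ ω, μ ω * ∑ σ ∈ range S,
        (θ / 2 * (β σ * (∑ f, K e f * a σ f ω) ^ 2) + 1 / (2 * θ) * (V σ e ω ^ 2 / β σ)) :=
        sum_le_sum fun e _ => mul_le_mul_of_nonneg_left (sum_le_sum fun ω _ =>
          mul_le_mul_of_nonneg_left (sum_le_sum fun σ _ => h1 e ω σ) (hμ ω)) (hπ e)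
    _ = θ / 2 * (∑ e, π e * ∑ ω, μ ω * ∑ σ ∈ range S, β σ * (∑ f, K e f * a σ f ω) ^ 2) +
        1 / (2 * θ) * ∑ e, π e * ∑ ω, μ ω * ∑ σ ∈ range S, V σ e ω ^ 2 / β σ := by
        rw [mul_sum, mul_sum, ← sum_add_distrib]
        refine sum_congr rfl fun e _ => ?_
        rw [mul_left_comm (θ / 2), mul_left_comm (1 / (2 * θ)), ← mul_add, mul_sum (a := θ / 2),
          mul_sum (a := 1 / (2 * θ)), ← sum_add_distrib]
        congr 1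
        refine sum_congr rfl fun ω _ => ?_
        rw [sum_add_distrib, ← mul_sum, ← mul_sum]
        ring
    _ ≤ θ / 2 * I + 1 / (2 * θ) * T :=
        add_le_add (mul_le_mul_of_nonneg_left h2 (by positivity))
          (mul_le_mul_of_nonneg_left h3 (by positivity))
    _ = _ := by field_simp

lemma l1_pair (π : E → ℝ) (hπ : ∀ e, 0 ≤ π e) (μ : Ω → ℝ) (hμ : ∀ ω, 0 ≤ μ ω) (K : E → E → ℝ)
    (A : ℝ) (hK : ∑ e, π e * ∑ f, |K e f| ≤ A)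
    (S : ℕ) (a V : ℕ → E → Ω → ℝ) (hV : ∀ σ e ω, 0 ≤ V σ e ω) (B : ℝ) (hB0 : 0 ≤ B)
    (hB : ∀ e f, ∑ ω, μ ω * ∑ σ ∈ range S, |a σ f ω| * V σ e ω ≤ B) :
    ∑ e, π e * ∑ ω, μ ω * ∑ σ ∈ range S, |∑ f, K e f * a σ f ω| * V σ e ω ≤ A * B := by
  refine le_trans ?_ (mul_le_mul_of_nonneg_right hK hB0)
  rw [sum_mul]
  refine sum_le_sum fun e _ => ?_
  rw [mul_assoc]
  refine mul_le_mul_of_nonneg_left ?_ (hπ e)
  calc _ ≤ ∑ ω, μ ω * ∑ σ ∈ range S, ∑ f, |K e f| * (|a σ f ω| * V σ e ω) := by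
        refine sum_le_sum fun ω _ => mul_le_mul_of_nonneg_left (sum_le_sum fun σ _ => ?_) (hμ ω)
        refine (mul_le_mul_of_nonneg_right (abs_sum_le_sum_abs _ _) (hV σ e ω)).trans
          (le_of_eq ?_)
        rw [sum_mul]
        exact sum_congr rfl fun f _ => by rw [abs_mul, mul_assoc]
    _ = ∑ f, |K e f| * ∑ ω, μ ω * ∑ σ ∈ range S, |a σ f ω| * V σ e ω := by
        simp_rw [mul_sum]
        rw [sum_comm (s := univ) (t := univ) (f := fun (f : E) (ω : Ω) => ∑ σ ∈ range S,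
          |K e f| * (μ ω * (|a σ f ω| * V σ e ω)))]
        refine sum_congr rfl fun ω _ => ?_
        rw [sum_comm]
        exact sum_congr rfl fun f _ => sum_congr rfl fun σ _ => by ring
    _ ≤ ∑ f, |K e f| * B :=
        sum_le_sum fun f _ => mul_le_mul_of_nonneg_left (hB e f) (abs_nonneg _)
    _ = _ := by rw [sum_mul]

lemma avg_le (μ : Ω → ℝ) (hμ : ∀ ω, 0 ≤ μ ω) (φ ψ : Ω → ℝ) (c b : ℝ) (hc : 0 ≤ c)
    (h : ∀ ω, φ ω ≤ c * ψ ω) (hψ : ∑ ω, μ ω * ψ ω ≤ b) : ∑ ω, μ ω * φ ω ≤ c * b := by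
  refine le_trans ?_ (mul_le_mul_of_nonneg_left hψ hc)
  rw [mul_sum]
  refine sum_le_sum fun ω _ => ?_
  rw [mul_left_comm]
  exact mul_le_mul_of_nonneg_left (h ω) (hμ ω)

lemma split_sum (π : E → ℝ) (μ : Ω → ℝ) (K : E → E → ℝ) (u : E → Ω → ℝ)
    (hu : ∀ e ω, ∑ f, K e f * u f ω = 0) (S : ℕ) (r : E → Ω → ℝ) (l p : ℝ) :
    ∑ e, π e * ∑ ω, μ ω * ∑ σ ∈ range S, |∑ f, K e f * hi σ (u f ω)| * r e ω ^ (p - 1) =
      ∑ e, π e * ∑ ω, μ ω * ∑ σ ∈ range S, |∑ f, K e f * hi σ (u f ω)| *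
        (if l * r e ω ≤ (2 : ℝ) ^ σ then r e ω ^ (p - 1) else 0) +
      ∑ e, π e * ∑ ω, μ ω * ∑ σ ∈ range S, |∑ f, K e f * lo σ (u f ω)| *
        (if l * r e ω ≤ (2 : ℝ) ^ σ then 0 else r e ω ^ (p - 1)) := by
  rw [← sum_add_distrib]
  refine sum_congr rfl fun e _ => ?_
  rw [← mul_add, ← sum_add_distrib]
  congr 1
  refine sum_congr rfl fun ω _ => ?_
  rw [← mul_add, ← sum_add_distrib]
  congr 1
  refine sum_congr rfl fun σ _ => ?_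
  have h1 : ∑ f, K e f * lo σ (u f ω) = -∑ f, K e f * hi σ (u f ω) := by
    rw [eq_neg_iff_add_eq_zero, ← sum_add_distrib, ← hu e ω]
    refine sum_congr rfl fun f _ => ?_
    rw [← mul_add, add_comm, hi_add_lo]
  rw [h1, abs_neg]
  split_ifs <;> simp

lemma comm_dual (p : ℝ) (hp : 1 < p) (hp2 : p ≠ 2) : ∃ C : ℝ, 0 < C ∧
    ∀ (E Ω : Type) [Fintype E] [Fintype Ω] (π : E → ℝ), (∀ e, 0 ≤ π e) → ∑ e, π e = 1 →
    ∀ (μ : Ω → ℝ), (∀ ω, 0 ≤ μ ω) → ∀ (K : E → E → ℝ) (A : ℝ), 1 ≤ A →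
    (∀ a : E → ℝ, ∑ e, π e * (∑ f, K e f * a f) ^ 2 ≤ ∑ e, π e * a e ^ 2) →
    ∑ e, π e * ∑ f, |K e f| ≤ A → ∀ (u : E → Ω → ℝ), (∀ e ω, ∑ f, K e f * u f ω = 0) →
    (∀ e, ∑ ω, μ ω * |u e ω| ^ p ≤ 2) → ∀ (S : ℕ) (r : E → Ω → ℝ), (∀ e ω, 0 ≤ r e ω) →
    (∀ e, ∑ ω, μ ω * r e ω ^ p ≤ 1) →
    ∑ e, π e * ∑ ω, μ ω * ∑ σ ∈ range S, |∑ f, K e f * hi σ (u f ω)| * r e ω ^ (p - 1) ≤
      C * A ^ (if p < 2 then 2 - p else 1 - 2 / p) := by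
  have hp0 : 0 < p := by linarith
  rcases lt_or_gt_of_ne hp2 with hlt | hgt
  · obtain ⟨C1, hC1, h1⟩ := pt_b1 p hp
    obtain ⟨C2, hC2, h2⟩ := pt_b2 p hp0 hlt
    obtain ⟨C3, hC3, h3⟩ := pt_b3 p hp hlt
    refine ⟨C1 * 2 + (C2 * 2 + C3) / 2, by positivity, ?_⟩
    intro E Ω _ _ π hπ hπ1 μ hμ K A hA hK2 hK3 u hu hup S r hr hrp
    rw [if_pos hlt]
    have hA0 : 0 < A := by linarith
    obtain ⟨l, hl⟩ : ∃ l, l = A ^ (2 / p) := ⟨_, rfl⟩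
    have hl0 : 0 < l := by rw [hl]; positivity
    obtain ⟨θ, hθ⟩ : ∃ θ, θ = A ^ (2 / p - 1) := ⟨_, rfl⟩
    have hθ0 : 0 < θ := by rw [hθ]; positivity
    have hθA : θ ≤ A ^ (2 - p) := by
      rw [hθ]
      refine Real.rpow_le_rpow_of_exponent_le hA ?_
      rw [sub_le_iff_le_add, div_le_iff₀ hp0]
      nlinarith
    have e1 : A * l ^ (1 - p) = θ := by
      rw [hl, hθ, ← Real.rpow_mul hA0.le, mul_comm, ← Real.rpow_add_one hA0.ne']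
      congr 1; field_simp; ring
    have e2 : l ^ (2 - p) = θ * θ := by
      rw [hl, hθ, ← Real.rpow_mul hA0.le, ← Real.rpow_add hA0]
      congr 1; field_simp; ring
    rw [split_sum π μ K u hu S r l p]
    have t1 := l1_pair π hπ μ hμ K A hK3 S (fun σ f ω => hi σ (u f ω))
      (fun σ e ω => if l * r e ω ≤ (2 : ℝ) ^ σ then r e ω ^ (p - 1) else 0)
      (fun σ e ω => by have := hr e ω; split_ifs <;> positivity) (C1 * l ^ (1 - p) * 2)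
      (by positivity)
      (fun e f => avg_le μ hμ _ (fun ω => |u f ω| ^ p) _ _ (by positivity)
        (fun ω => h1 S (u f ω) l (r e ω) hl0 (hr e ω)) (hup f))
    have t2 := l2_pair π hπ hπ1 μ hμ K hK2 S (fun σ f ω => lo σ (u f ω))
      (fun σ e ω => if l * r e ω ≤ (2 : ℝ) ^ σ then 0 else r e ω ^ (p - 1))
      (fun σ => ((2 : ℝ) ^ σ) ^ (-(2 - p))) (fun σ => by positivity) (C2 * 2)
      (C3 * l ^ (2 - p) * 1) θ hθ0
      (fun e => avg_le μ hμ _ (fun ω => |u e ω| ^ p) _ _ hC2.le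
        (fun ω => h2 S (u e ω)) (hup e))
      (fun e => avg_le μ hμ _ (fun ω => r e ω ^ p) _ _ (by positivity)
        (fun ω => h3 S l (r e ω) hl0 (hr e ω)) (hrp e))
    refine (add_le_add t1 t2).trans ?_
    have e3 : A * (C1 * l ^ (1 - p) * 2) + (θ * (C2 * 2) + C3 * l ^ (2 - p) * 1 / θ) / 2 =
        (C1 * 2 + (C2 * 2 + C3) / 2) * θ := by
      rw [e2, ← e1]
      rw [e1]
      have : A * (C1 * l ^ (1 - p) * 2) = C1 * 2 * θ := by rw [← e1]; ring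
      rw [this]
      field_simp
    rw [e3]
    exact mul_le_mul_of_nonneg_left hθA (by positivity)
  · obtain ⟨C1, hC1, h1⟩ := pt_a1 p hgt
    obtain ⟨C2, hC2, h2⟩ := pt_a2 p hgt
    obtain ⟨C3, hC3, h3⟩ := pt_a3 p hp
    refine ⟨(C1 * 2 + C2) / 2 + C3, by positivity, ?_⟩
    intro E Ω _ _ π hπ hπ1 μ hμ K A hA hK2 hK3 u hu hup S r hr hrp
    rw [if_neg (not_lt.mpr hgt.le)]
    have hA0 : 0 < A := by linarith
    obtain ⟨l, hl⟩ : ∃ l, l = A ^ (-(2 / p)) := ⟨_, rfl⟩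
    have hl0 : 0 < l := by rw [hl]; positivity
    obtain ⟨θ, hθ⟩ : ∃ θ, θ = A ^ (1 - 2 / p) := ⟨_, rfl⟩
    have hθ0 : 0 < θ := by rw [hθ]; positivity
    rw [← hθ]
    have e1 : A * l = θ := by
      rw [hl, hθ, mul_comm, ← Real.rpow_add_one hA0.ne']
      congr 1; ring
    have e2 : l ^ (2 - p) = θ * θ := by
      rw [hl, hθ, ← Real.rpow_mul hA0.le, ← Real.rpow_add hA0]
      congr 1; field_simp; ring
    rw [split_sum π μ K u hu S r l p]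
    have t1 := l2_pair π hπ hπ1 μ hμ K hK2 S (fun σ f ω => hi σ (u f ω))
      (fun σ e ω => if l * r e ω ≤ (2 : ℝ) ^ σ then r e ω ^ (p - 1) else 0)
      (fun σ => ((2 : ℝ) ^ σ) ^ (p - 2)) (fun σ => by positivity) (C1 * 2)
      (C2 * l ^ (2 - p) * 1) θ hθ0
      (fun e => avg_le μ hμ _ (fun ω => |u e ω| ^ p) _ _ hC1.le
        (fun ω => h1 S (u e ω)) (hup e))
      (fun e => avg_le μ hμ _ (fun ω => r e ω ^ p) _ _ (by positivity)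
        (fun ω => h2 S l (r e ω) hl0 (hr e ω)) (hrp e))
    have t2 := l1_pair π hπ μ hμ K A hK3 S (fun σ f ω => lo σ (u f ω))
      (fun σ e ω => if l * r e ω ≤ (2 : ℝ) ^ σ then 0 else r e ω ^ (p - 1))
      (fun σ e ω => by have := hr e ω; split_ifs <;> positivity) (C3 * l * 1)
      (by positivity)
      (fun e f => avg_le μ hμ _ (fun ω => r e ω ^ p) _ _ (by positivity)
        (fun ω => h3 S (u f ω) l (r e ω) hl0 (hr e ω)) (hrp e))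
    refine (add_le_add t1 t2).trans (le_of_eq ?_)
    have : A * (C3 * l * 1) = C3 * θ := by rw [← e1]; ring
    rw [this, e2]
    field_simp

/-- weighted `ℓ^p` norm -/
noncomputable def wn {ι : Type*} [Fintype ι] (p : ℝ) (ν a : ι → ℝ) : ℝ :=
  (∑ i, ν i * |a i| ^ p) ^ (1 / p)

theorem comm_bound (p : ℝ) (hp : 1 < p) (hp2 : p ≠ 2) : ∃ C : ℝ, 0 < C ∧
    ∀ (E Ω : Type) [Fintype E] [Fintype Ω] (π : E → ℝ), (∀ e, 0 ≤ π e) → ∑ e, π e = 1 →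
    ∀ (μ : Ω → ℝ), (∀ ω, 0 ≤ μ ω) → ∀ (K : E → E → ℝ) (A : ℝ), 1 ≤ A →
    (∀ a : E → ℝ, ∑ e, π e * (∑ f, K e f * a f) ^ 2 ≤ ∑ e, π e * a e ^ 2) →
    ∑ e, π e * ∑ f, |K e f| ≤ A → ∀ (u : E → Ω → ℝ), (∀ e ω, ∑ f, K e f * u f ω = 0) →
    (∀ e, ∑ ω, μ ω * |u e ω| ^ p ≤ 2) → ∀ (S : ℕ),
    ∑ e, π e * wn p μ (fun ω => ∑ σ ∈ range S, |∑ f, K e f * hi σ (u f ω)|) ≤
      C * A ^ (if p < 2 then 2 - p else 1 - 2 / p) := by
  obtain ⟨C, hC, h⟩ := comm_dual p hp hp2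
  refine ⟨C, hC, ?_⟩
  intro E Ω _ _ π hπ hπ1 μ hμ K A hA hK2 hK3 u hu hup S
  have hp0 : 0 < p := by linarith
  obtain ⟨N, hN⟩ : ∃ N : E → Ω → ℝ,
      N = fun e ω => ∑ σ ∈ range S, |∑ f, K e f * hi σ (u f ω)| := ⟨_, rfl⟩
  have hNe : ∀ e ω, N e ω = ∑ σ ∈ range S, |∑ f, K e f * hi σ (u f ω)| := fun e ω => by rw [hN]
  have hN0 : ∀ e ω, 0 ≤ N e ω := fun e ω => by
    rw [hNe]; exact sum_nonneg fun σ _ => abs_nonneg _
  have hs0 : ∀ e, 0 ≤ ∑ ω, μ ω * |N e ω| ^ p := fun e =>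
    sum_nonneg fun ω _ => mul_nonneg (hμ ω) (by positivity)
  have ha0 : ∀ e, 0 ≤ wn p μ (N e) := fun e => Real.rpow_nonneg (hs0 e) _
  have hap : ∀ e, wn p μ (N e) ^ p = ∑ ω, μ ω * N e ω ^ p := fun e => by
    unfold wn
    rw [← Real.rpow_mul (hs0 e), one_div_mul_cancel hp0.ne', Real.rpow_one]
    exact sum_congr rfl fun ω _ => by rw [abs_of_nonneg (hN0 e ω)]
  have hrp : ∀ e, 0 < wn p μ (N e) → ∑ ω, μ ω * (N e ω / wn p μ (N e)) ^ p = 1 := by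
    intro e he
    simp_rw [Real.div_rpow (hN0 e _) he.le, ← mul_div_assoc]
    rw [← sum_div, ← hap, div_self (by positivity)]
  have h1 := h E Ω π hπ hπ1 μ hμ K A hA hK2 hK3 u hu hup S (fun e ω => N e ω / wn p μ (N e))
    (fun e ω => div_nonneg (hN0 e ω) (ha0 e)) (fun e => by
      rcases (ha0 e).eq_or_lt with h0 | h0
      · simp [← h0, Real.zero_rpow hp0.ne']
      · exact (hrp e h0).le)
  refine le_trans (sum_le_sum fun e _ => mul_le_mul_of_nonneg_left ?_ (hπ e)) h1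
  simp_rw [← sum_mul, ← hNe]
  change wn p μ (N e) ≤ _
  rcases (ha0 e).eq_or_lt with h0 | h0
  · rw [← h0]
    exact sum_nonneg fun ω _ => mul_nonneg (hμ ω) (mul_nonneg (hN0 e ω)
      (Real.rpow_nonneg (by simp) _))
  · refine le_of_eq ?_
    conv_lhs => rw [← mul_one (wn p μ (N e)), ← hrp e h0, mul_sum]
    refine sum_congr rfl fun ω _ => ?_
    rw [← rpow_mul_self _ p (div_nonneg (hN0 e ω) h0.le) hp0]
    field_simp

end Crest.Agent.R232
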