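import Mathlib

set_option autoImplicit false

namespace Crest.Agent.R232

open MeasureTheory
open scoped ENNReal
universe u

lemma fr_integral {α : Type u} [MeasurableSpace α] {μ : Measure α} (p : ℝ≥0∞) [Fact (1 ≤ p)]
    (hptop : p ≠ ⊤) (f g : Lp ℝ p μ) :
    Integrable (fun ω => |f ω - g ω| ^ p.toReal) μ ∧
      ∫ ω, |f ω - g ω| ^ p.toReal ∂μ = ‖f - g‖ ^ p.toReal := by
  have hp1 : (1 : ℝ≥0∞) ≤ p := Fact.out
  have hp0 : p ≠ 0 := by rintro rfl; simp at hp1
  have hq : 0 < p.toReal := ENNReal.toReal_pos hp0 hptop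
  have hae : (fun ω => ‖(f - g) ω‖ ^ p.toReal) =ᵐ[μ] fun ω => |f ω - g ω| ^ p.toReal := by
    filter_upwards [Lp.coeFn_sub f g] with ω h
    rw [h]; simp
  refine ⟨((Lp.memLp (f - g)).integrable_norm_rpow hp0 hptop).congr hae, ?_⟩
  rw [← integral_congr_ae hae, Lp.norm_def,
    MemLp.eLpNorm_eq_integral_rpow_norm hp0 hptop (Lp.memLp (f - g))]
  have h0 : 0 ≤ ∫ ω, ‖(f - g) ω‖ ^ p.toReal ∂μ := integral_nonneg fun ω => by positivity
  rw [ENNReal.toReal_ofReal (by positivity), ← Real.rpow_mul h0, inv_mul_cancel₀ hq.ne',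
    Real.rpow_one]

theorem finite_reduction {X : Type} [Fintype X] (p : ℝ≥0∞) [Fact (1 ≤ p)] (hptop : p ≠ ⊤)
    {α : Type u} [MeasurableSpace α] (μ : Measure α) (x : X → Lp ℝ p μ)
    (hx : Function.Injective x) (hX : 2 ≤ Fintype.card X) (ε : ℝ) (hε : 0 < ε) :
    ∃ (Ω : Type) (_ : Fintype Ω) (w : Ω → ℝ) (F : X → Ω → ℝ), (∀ ω, 0 ≤ w ω) ∧ ∑ ω, w ω = 1 ∧
    (∀ i j ω, |F i ω - F j ω| ^ p.toReal ≤ (Fintype.card X : ℝ) ^ 2 * ‖x i - x j‖ ^ p.toReal) ∧
    (∀ i j, |∑ ω, w ω * |F i ω - F j ω| ^ p.toReal - ‖x i - x j‖ ^ p.toReal|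
      ≤ ε * ‖x i - x j‖ ^ p.toReal) := by
  classical
  have hp1 : (1 : ℝ≥0∞) ≤ p := Fact.out
  have hp0 : p ≠ 0 := by rintro rfl; simp at hp1
  have hq : 0 < p.toReal := ENNReal.toReal_pos hp0 hptop
  set q := p.toReal with hqdef
  let t : X × X → ℝ := fun e => ‖x e.1 - x e.2‖ ^ q
  have ht0 : ∀ e, 0 ≤ t e := fun e => by positivity
  have htpos : ∀ e : X × X, e.1 ≠ e.2 → 0 < t e := fun e he =>
    Real.rpow_pos_of_pos (norm_pos_iff.mpr (sub_ne_zero.mpr fun h => he (hx h))) _
  have htdiag : ∀ i, t (i, i) = 0 := fun i => by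
    simp only [t, sub_self, norm_zero]; exact Real.zero_rpow hq.ne'
  let z : (X → ℝ) → X × X → ℝ := fun a e => |a e.1 - a e.2| ^ q / t e
  have hz0 : ∀ a e, 0 ≤ z a e := fun a e => div_nonneg (by positivity) (ht0 e)
  let v : X × X → ℝ := fun e => if e.1 = e.2 then 0 else 1
  let N : ℝ := ∑ e, v e
  have hv0 : ∀ e, 0 ≤ v e := fun e => by simp only [v]; split_ifs <;> norm_num
  have hNpos : 0 < N := by
    obtain ⟨i, j, hij⟩ := Fintype.exists_pair_of_one_lt_card (α := X) (by omega)
    have : v (i, j) ≤ N := Finset.single_le_sum (fun e _ => hv0 e) (Finset.mem_univ _)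
    simp only [v, hij, if_false] at this
    linarith
  have hNle : N ≤ (Fintype.card X : ℝ) ^ 2 := by
    have : N ≤ ∑ _e : X × X, (1:ℝ) := Finset.sum_le_sum fun e _ => by
      simp only [v]; split_ifs <;> norm_num
    simpa [sq] using this
  let K : Set (X × X → ℝ) := {y | ∃ a, y = z a ∧ ∑ e, z a e = N}
  have hmem : v ∈ closure (convexHull ℝ K) := by
    by_contra hv
    obtain ⟨f, u, hfu, huv⟩ := geometric_hahn_banach_closed_point
      (convex_convexHull ℝ K).closure isClosed_closure hv
    let c : X × X → ℝ := fun e => f (fun j => if e = j then 1 else 0)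
    have hf : ∀ y : X × X → ℝ, f y = ∑ e, y e * c e := fun y => by
      have := LinearMap.pi_apply_eq_sum_univ (f : (X × X → ℝ) →ₗ[ℝ] ℝ) y
      simpa [c] using this
    have key : ∀ a, ∑ e, z a e * (c e - u / N) ≤ 0 := by
      intro a
      have hsum : ∑ e, z a e * (c e - u / N) = f (z a) - (∑ e, z a e) * (u / N) := by
        rw [hf, Finset.sum_mul, ← Finset.sum_sub_distrib]
        exact Finset.sum_congr rfl fun e _ => by ring
      by_cases hρ : ∑ e, z a e = 0
      · have := (Finset.sum_eq_zero_iff_of_nonneg fun e _ => hz0 a e).mp hρ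
        apply le_of_eq
        exact Finset.sum_eq_zero fun e he => by rw [this e he, zero_mul]
      · have hρpos : 0 < ∑ e, z a e :=
          lt_of_le_of_ne (Finset.sum_nonneg fun e _ => hz0 a e) (Ne.symm hρ)
        set ρ := ∑ e, z a e with hρdef
        have hk : 0 < N / ρ := div_pos hNpos hρpos
        let a' : X → ℝ := fun i => (N / ρ) ^ q⁻¹ * a i
        have hza : z a' = (N / ρ) • z a := by
          funext e
          simp only [z, a', Pi.smul_apply, smul_eq_mul]
          rw [← mul_sub, abs_mul, Real.mul_rpow (abs_nonneg _) (abs_nonneg _),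
            abs_of_nonneg (by positivity), ← Real.rpow_mul hk.le, inv_mul_cancel₀ hq.ne',
            Real.rpow_one]
          ring
        have hK : z a' ∈ K := ⟨a', rfl, by
          rw [hza]
          simp only [Pi.smul_apply, smul_eq_mul, ← Finset.mul_sum]
          rw [← hρdef]; field_simp⟩
        have h1 := hfu _ (subset_closure (subset_convexHull ℝ K hK))
        rw [hza, map_smul, smul_eq_mul] at h1
        rw [hsum]
        have h2 : f (z a) = (ρ / N) * (N / ρ * f (z a)) := by field_simp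
        have h3 : ρ * (u / N) = (ρ / N) * u := by ring
        rw [h3, h2]
        have h4 : 0 < ρ / N := div_pos hρpos hNpos
        nlinarith
    have hint : ∀ e : X × X, Integrable (fun ω => z (fun i => x i ω) e) μ ∧
        ∫ ω, z (fun i => x i ω) e ∂μ = v e := by
      intro e
      obtain ⟨h1, h2⟩ := fr_integral p hptop (x e.1) (x e.2)
      refine ⟨h1.div_const _, ?_⟩
      simp only [z]
      rw [integral_div, h2]
      by_cases he : e.1 = e.2
      · obtain ⟨i, j⟩ := e
        simp only at he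
        subst he
        simp [v, htdiag]
      · simp only [v, he, if_false]
        exact div_self (htpos e he).ne'
    have h5 : ∫ ω, ∑ e, z (fun i => x i ω) e * (c e - u / N) ∂μ ≤ 0 := by
      apply integral_nonpos
      intro ω
      exact key (fun i => x i ω)
    rw [integral_finsetSum Finset.univ
      (f := fun e ω => z (fun i => x i ω) e * (c e - u / N))
      fun e _ => (hint e).1.mul_const (c e - u / N)] at h5
    simp only [integral_mul_const, fun e => (hint e).2] at h5
    have h6 : ∑ e, v e * (c e - u / N) = f v - N * (u / N) := by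
      rw [hf]
      conv_rhs => rw [show N * (u / N) = (∑ e, v e) * (u / N) from rfl]
      rw [Finset.sum_mul, ← Finset.sum_sub_distrib]
      exact Finset.sum_congr rfl fun e _ => by ring
    rw [h6, mul_div_cancel₀ _ hNpos.ne'] at h5
    linarith
  obtain ⟨y, hy, hdist⟩ := Metric.mem_closure_iff.mp hmem ε hε
  obtain ⟨Ω, hΩ, w, Z, hw0, hw1, hZ, hsum⟩ := mem_convexHull_iff_exists_fintype.mp hy
  choose A hA1 hA2 using hZ
  have hdiag : ∀ s : ℝ, |s - s| ^ q = 0 := fun s => by
    rw [sub_self, abs_zero]; exact Real.zero_rpow hq.ne'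
  refine ⟨Ω, hΩ, w, fun i ω => A ω i, hw0, hw1, fun i j ω => ?_, fun i j => ?_⟩
  · by_cases hij : i = j
    · subst hij
      rw [hdiag]; positivity
    · have h1 : z (A ω) (i, j) ≤ N := by
        rw [← hA2 ω]
        exact Finset.single_le_sum (fun e _ => hz0 _ e) (Finset.mem_univ _)
      have h2 := htpos (i, j) hij
      simp only [z] at h1
      rw [div_le_iff₀ h2] at h1
      exact h1.trans (mul_le_mul_of_nonneg_right hNle h2.le)
  · by_cases hij : i = j
    · subst hij
      have := htdiag i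
      simp only [t] at this
      simp only [hdiag, this]
      simp
    · have h2 := htpos (i, j) hij
      have h3 : dist (v (i, j)) (y (i, j)) ≤ ε := (dist_le_pi_dist v y (i, j)).trans hdist.le
      have h4 : y (i, j) = (∑ ω, w ω * |A ω i - A ω j| ^ q) / t (i, j) := by
        rw [← hsum, Finset.sum_apply, Finset.sum_div]
        refine Finset.sum_congr rfl fun ω _ => ?_
        rw [hA1 ω]
        simp only [z, Pi.smul_apply, smul_eq_mul]
        ring
      simp only [v, hij, if_false, Real.dist_eq] at h3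
      rw [h4, abs_sub_comm] at h3
      have h5 : ∑ ω, w ω * |A ω i - A ω j| ^ q - t (i, j)
          = ((∑ ω, w ω * |A ω i - A ω j| ^ q) / t (i, j) - 1) * t (i, j) := by
        field_simp
      change |∑ ω, w ω * |A ω i - A ω j| ^ q - t (i, j)| ≤ ε * t (i, j)
      rw [h5, abs_mul, abs_of_pos h2]
      exact mul_le_mul_of_nonneg_right h3 h2.le

end Crest.Agent.R232
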