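import Mathlib

/-! Geometric sums and pointwise estimates for the commutator bound. -/

set_option autoImplicit false

namespace Crest.Agent.R232
open Finset

lemma geo_up (θ : ℝ) (hθ : 0 < θ) : ∃ C : ℝ, 0 < C ∧ ∀ (S : ℕ) (x : ℝ), 0 ≤ x →
    ∑ σ ∈ range S, (if (2 : ℝ) ^ σ ≤ x then ((2 : ℝ) ^ σ) ^ θ else 0) ≤ C * x ^ θ := by
  obtain ⟨ρ, hρ⟩ : ∃ ρ : ℝ, ρ = 2 ^ θ := ⟨_, rfl⟩
  have hρ1 : 1 < ρ := hρ ▸ Real.one_lt_rpow (by norm_num) hθ
  have hpow : ∀ σ : ℕ, ((2 : ℝ) ^ σ) ^ θ = ρ ^ σ := fun σ => by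
    rw [hρ, Real.rpow_pow_comm (by norm_num)]
  have hC : 0 < ρ / (ρ - 1) := div_pos (by linarith) (by linarith)
  refine ⟨ρ / (ρ - 1), hC, fun S x hx => ?_⟩
  induction S with
  | zero => simp only [range_zero, sum_empty]; positivity
  | succ S ih =>
    by_cases h : (2 : ℝ) ^ S ≤ x
    · have h1 : ρ ^ S ≤ x ^ θ := by
        rw [← hpow]; exact Real.rpow_le_rpow (by positivity) h hθ.le
      have h2 : ∑ σ ∈ range (S + 1), (if (2 : ℝ) ^ σ ≤ x then ((2 : ℝ) ^ σ) ^ θ else 0) ≤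
          ∑ σ ∈ range (S + 1), ρ ^ σ := by
        refine sum_le_sum fun σ _ => ?_
        rw [hpow]
        split_ifs
        · exact le_rfl
        · positivity
      rw [geom_sum_eq hρ1.ne'] at h2
      refine h2.trans ?_
      rw [div_mul_eq_mul_div]
      refine div_le_div_of_nonneg_right ?_ (by linarith)
      have := mul_le_mul_of_nonneg_left h1 (by linarith : (0 : ℝ) ≤ ρ)
      rw [pow_succ]
      linarith
    · rw [sum_range_succ, if_neg h, add_zero]; exact ih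

lemma geo_down (θ : ℝ) (hθ : 0 < θ) : ∃ C : ℝ, 0 < C ∧ ∀ (S : ℕ) (x : ℝ), 0 < x →
    ∑ σ ∈ range S, (if x ≤ (2 : ℝ) ^ σ then ((2 : ℝ) ^ σ) ^ (-θ) else 0) ≤ C * x ^ (-θ) := by
  obtain ⟨ρ, hρ⟩ : ∃ ρ : ℝ, ρ = 2 ^ (-θ) := ⟨_, rfl⟩
  have hρ1 : ρ < 1 := hρ ▸ Real.rpow_lt_one_of_one_lt_of_neg (by norm_num) (by linarith)
  have hρ0 : 0 < ρ := hρ ▸ Real.rpow_pos_of_pos (by norm_num) _
  have hpow : ∀ σ : ℕ, ((2 : ℝ) ^ σ) ^ (-θ) = ρ ^ σ := fun σ => by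
    rw [hρ, Real.rpow_pow_comm (by norm_num)]
  obtain ⟨C, hCd⟩ : ∃ C, C = 1 / (1 - ρ) := ⟨_, rfl⟩
  have hC : 0 < C := by rw [hCd]; exact div_pos one_pos (by linarith)
  have hC1 : C * (1 - ρ) = 1 := by
    rw [hCd]; have : 1 - ρ ≠ 0 := by linarith
    field_simp
  refine ⟨C, hC, fun S x hx => ?_⟩
  have key : ∑ σ ∈ range S, (if x ≤ (2 : ℝ) ^ σ then ((2 : ℝ) ^ σ) ^ (-θ) else 0) ≤
      C * max 0 (x ^ (-θ) - ρ ^ S) := by
    induction S with
    | zero => simp only [range_zero, sum_empty]; positivity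
    | succ S ih =>
      rw [sum_range_succ]
      have hS : 0 < ρ ^ S := by positivity
      have hS1 : ρ ^ (S + 1) ≤ ρ ^ S := by rw [pow_succ]; nlinarith
      by_cases h : x ≤ (2 : ℝ) ^ S
      · have h1 : ρ ^ S ≤ x ^ (-θ) := by
          rw [← hpow]; exact Real.rpow_le_rpow_of_nonpos hx h (by linarith)
        rw [if_pos h, hpow]
        rw [max_eq_right (by linarith)] at ih
        rw [max_eq_right (by linarith), pow_succ]
        have : ρ ^ S = C * (1 - ρ) * ρ ^ S := by rw [hC1, one_mul]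
        nlinarith
      · rw [if_neg h, add_zero]
        refine ih.trans (mul_le_mul_of_nonneg_left (max_le_max le_rfl (by linarith)) hC.le)
  refine key.trans (mul_le_mul_of_nonneg_left (max_le (by positivity) ?_) hC.le)
  have : 0 < ρ ^ S := by positivity
  linarith

/-- the part of `u` above level `σ` -/
noncomputable def hi (σ : ℕ) (u : ℝ) : ℝ := if (2 : ℝ) ^ (σ + 1) ≤ |u| then u else 0
/-- the part of `u` below level `σ` -/
noncomputable def lo (σ : ℕ) (u : ℝ) : ℝ := if (2 : ℝ) ^ (σ + 1) ≤ |u| then 0 else u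

lemma hi_add_lo (σ : ℕ) (u : ℝ) : hi σ u + lo σ u = u := by
  unfold hi lo; split_ifs <;> simp

lemma rpow_mul_sq (x a : ℝ) (hx : 0 ≤ x) (ha : 0 < a) : x ^ (a - 2) * x ^ 2 = x ^ a := by
  rcases hx.eq_or_lt with h | h
  · rw [← h, Real.zero_rpow ha.ne']; simp
  · rw [← Real.rpow_natCast, ← Real.rpow_add h]; norm_num

lemma rpow_mul_self (x a : ℝ) (hx : 0 ≤ x) (ha : 0 < a) : x ^ (a - 1) * x = x ^ a := by
  rcases hx.eq_or_lt with h | h
  · rw [← h, Real.zero_rpow ha.ne']; simp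
  · conv_lhs => rw [← Real.rpow_add_one h.ne']
    norm_num

lemma pt_a1 (p : ℝ) (hp : 2 < p) : ∃ C : ℝ, 0 < C ∧ ∀ (S : ℕ) (u : ℝ),
    ∑ σ ∈ range S, ((2 : ℝ) ^ σ) ^ (p - 2) * hi σ u ^ 2 ≤ C * |u| ^ p := by
  obtain ⟨C, hC, h⟩ := geo_up (p - 2) (by linarith)
  refine ⟨C, hC, fun S u => ?_⟩
  have h1 := mul_le_mul_of_nonneg_right (h S |u| (abs_nonneg u)) (sq_nonneg |u|)
  rw [mul_assoc, rpow_mul_sq _ _ (abs_nonneg u) (by linarith), sum_mul] at h1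
  refine le_trans (sum_le_sum fun σ _ => ?_) h1
  unfold hi
  by_cases h2 : (2 : ℝ) ^ (σ + 1) ≤ |u|
  · have h3 : (2 : ℝ) ^ σ ≤ |u| := le_trans (pow_le_pow_right₀ (by norm_num) (by omega)) h2
    rw [if_pos h2, if_pos h3, sq_abs]
  · rw [if_neg h2]
    split_ifs
    · simp only [ne_eq, OfNat.ofNat_ne_zero, not_false_eq_true, zero_pow, mul_zero]; positivity
    · simp

lemma pt_a2 (p : ℝ) (hp : 2 < p) : ∃ C : ℝ, 0 < C ∧ ∀ (S : ℕ) (l r : ℝ), 0 < l → 0 ≤ r →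
    ∑ σ ∈ range S, (if l * r ≤ (2 : ℝ) ^ σ then r ^ (p - 1) else 0) ^ 2 /
      ((2 : ℝ) ^ σ) ^ (p - 2) ≤ C * l ^ (2 - p) * r ^ p := by
  obtain ⟨C, hC, h⟩ := geo_down (p - 2) (by linarith)
  refine ⟨C, hC, fun S l r hl hr => ?_⟩
  rcases hr.eq_or_lt with h0 | hr
  · rw [← h0, Real.zero_rpow (by linarith), Real.zero_rpow (by linarith)]; simp
  have h1 := mul_le_mul_of_nonneg_right (h S (l * r) (mul_pos hl hr)) (sq_nonneg (r ^ (p - 1)))
  have e1 : C * (l * r) ^ (-(p - 2)) * (r ^ (p - 1)) ^ 2 = C * l ^ (2 - p) * r ^ p := by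
    rw [Real.mul_rpow hl.le hr.le, ← Real.rpow_natCast, ← Real.rpow_mul hr.le, neg_sub,
      mul_assoc, mul_assoc, ← Real.rpow_add hr, mul_assoc]
    congr 3
    push_cast; ring
  rw [e1, sum_mul] at h1
  refine le_trans (sum_le_sum fun σ _ => le_of_eq ?_) h1
  split_ifs
  · rw [Real.rpow_neg (by positivity)]; ring
  · simp

lemma pt_a3 (p : ℝ) (hp : 1 < p) : ∃ C : ℝ, 0 < C ∧ ∀ (S : ℕ) (u l r : ℝ), 0 < l → 0 ≤ r →
    ∑ σ ∈ range S, |lo σ u| * (if l * r ≤ (2 : ℝ) ^ σ then 0 else r ^ (p - 1)) ≤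
      C * l * r ^ p := by
  obtain ⟨C, hC, h⟩ := geo_up 1 one_pos
  refine ⟨2 * C, by positivity, fun S u l r hl hr => ?_⟩
  have h1 := mul_le_mul_of_nonneg_right (h S (l * r) (mul_nonneg hl.le hr))
    (by positivity : 0 ≤ 2 * r ^ (p - 1))
  have e1 : C * (l * r) ^ (1 : ℝ) * (2 * r ^ (p - 1)) = 2 * C * l * r ^ p := by
    rw [Real.rpow_one, ← rpow_mul_self r p hr (by linarith)]; ring
  rw [e1, sum_mul] at h1
  refine le_trans (sum_le_sum fun σ _ => ?_) h1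
  by_cases h2 : l * r ≤ (2 : ℝ) ^ σ
  · rw [if_pos h2, mul_zero]
    split_ifs <;> positivity
  · rw [if_neg h2, if_pos (not_le.mp h2).le, Real.rpow_one]
    have h3 : |lo σ u| ≤ 2 ^ (σ + 1) := by
      unfold lo
      split_ifs with h4
      · simp
      · exact (not_le.mp h4).le
    have := mul_le_mul_of_nonneg_right h3 (by positivity : 0 ≤ r ^ (p - 1))
    rw [pow_succ] at this
    linarith

lemma pt_b1 (p : ℝ) (hp : 1 < p) : ∃ C : ℝ, 0 < C ∧ ∀ (S : ℕ) (u l r : ℝ), 0 < l → 0 ≤ r →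
    ∑ σ ∈ range S, |hi σ u| * (if l * r ≤ (2 : ℝ) ^ σ then r ^ (p - 1) else 0) ≤
      C * l ^ (1 - p) * |u| ^ p := by
  obtain ⟨C, hC, h⟩ := geo_up (p - 1) (by linarith)
  refine ⟨C, hC, fun S u l r hl hr => ?_⟩
  have h1 := mul_le_mul_of_nonneg_right (h S |u| (abs_nonneg u))
    (by positivity : 0 ≤ |u| * l ^ (1 - p))
  have e1 : C * |u| ^ (p - 1) * (|u| * l ^ (1 - p)) = C * l ^ (1 - p) * |u| ^ p := by
    rw [← rpow_mul_self |u| p (abs_nonneg u) (by linarith)]; ring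
  rw [e1, sum_mul] at h1
  refine le_trans (sum_le_sum fun σ _ => ?_) h1
  unfold hi
  by_cases h2 : (2 : ℝ) ^ (σ + 1) ≤ |u|
  · have h3 : (2 : ℝ) ^ σ ≤ |u| := le_trans (pow_le_pow_right₀ (by norm_num) (by omega)) h2
    rw [if_pos h2, if_pos h3]
    split_ifs with h4
    · have h5 : r ≤ 2 ^ σ / l := by rw [le_div_iff₀ hl]; linarith
      have h6 := Real.rpow_le_rpow hr h5 (by linarith : 0 ≤ p - 1)
      rw [Real.div_rpow (by positivity) hl.le, div_eq_mul_inv, ← Real.rpow_neg hl.le,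
        neg_sub] at h6
      have := mul_le_mul_of_nonneg_left h6 (abs_nonneg u)
      linarith
    · rw [mul_zero]; positivity
  · rw [if_neg h2, abs_zero, zero_mul]
    split_ifs <;> positivity

lemma pt_b2 (p : ℝ) (hp0 : 0 < p) (hp : p < 2) : ∃ C : ℝ, 0 < C ∧ ∀ (S : ℕ) (u : ℝ),
    ∑ σ ∈ range S, ((2 : ℝ) ^ σ) ^ (-(2 - p)) * lo σ u ^ 2 ≤ C * |u| ^ p := by
  obtain ⟨C, hC, h⟩ := geo_down (2 - p) (by linarith)
  refine ⟨C * 2 ^ (2 - p), by positivity, fun S u => ?_⟩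
  rcases (abs_nonneg u).eq_or_lt with h0 | hu
  · have : u = 0 := abs_eq_zero.mp h0.symm
    subst this
    simp [lo, Real.zero_rpow hp0.ne']
  have h1 := mul_le_mul_of_nonneg_right (h S (|u| / 2) (by positivity)) (sq_nonneg |u|)
  have e1 : C * (|u| / 2) ^ (-(2 - p)) * |u| ^ 2 = C * 2 ^ (2 - p) * |u| ^ p := by
    rw [Real.div_rpow hu.le (by norm_num), Real.rpow_neg (by norm_num : (0 : ℝ) ≤ 2),
      ← rpow_mul_sq |u| p hu.le hp0, neg_sub]
    field_simp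
  rw [e1, sum_mul] at h1
  refine le_trans (sum_le_sum fun σ _ => ?_) h1
  unfold lo
  by_cases h2 : (2 : ℝ) ^ (σ + 1) ≤ |u|
  · rw [if_pos h2]
    split_ifs
    · simp only [ne_eq, OfNat.ofNat_ne_zero, not_false_eq_true, zero_pow, mul_zero]; positivity
    · simp
  · have h3 : |u| / 2 ≤ (2 : ℝ) ^ σ := by
      rw [pow_succ] at h2
      linarith [not_le.mp h2]
    rw [if_neg h2, if_pos h3, sq_abs]

lemma pt_b3 (p : ℝ) (hp1 : 1 < p) (hp : p < 2) : ∃ C : ℝ, 0 < C ∧ ∀ (S : ℕ) (l r : ℝ),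
    0 < l → 0 ≤ r →
    ∑ σ ∈ range S, (if l * r ≤ (2 : ℝ) ^ σ then 0 else r ^ (p - 1)) ^ 2 /
      ((2 : ℝ) ^ σ) ^ (-(2 - p)) ≤ C * l ^ (2 - p) * r ^ p := by
  obtain ⟨C, hC, h⟩ := geo_up (2 - p) (by linarith)
  refine ⟨C, hC, fun S l r hl hr => ?_⟩
  rcases hr.eq_or_lt with h0 | hr
  · rw [← h0, Real.zero_rpow (by linarith), Real.zero_rpow (by linarith)]; simp
  have h1 := mul_le_mul_of_nonneg_right (h S (l * r) (mul_pos hl hr).le)
    (sq_nonneg (r ^ (p - 1)))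
  have e1 : C * (l * r) ^ (2 - p) * (r ^ (p - 1)) ^ 2 = C * l ^ (2 - p) * r ^ p := by
    rw [Real.mul_rpow hl.le hr.le, ← Real.rpow_natCast, ← Real.rpow_mul hr.le,
      mul_assoc, mul_assoc, ← Real.rpow_add hr, mul_assoc]
    congr 3
    push_cast; ring
  rw [e1, sum_mul] at h1
  refine le_trans (sum_le_sum fun σ _ => ?_) h1
  by_cases h2 : l * r ≤ (2 : ℝ) ^ σ
  · rw [if_pos h2]
    split_ifs
    · simp only [ne_eq, OfNat.ofNat_ne_zero, not_false_eq_true, zero_pow, zero_div]; positivity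
    · simp
  · rw [if_neg h2, if_pos (not_le.mp h2).le, Real.rpow_neg (by positivity), div_inv_eq_mul]
    exact le_of_eq (mul_comm _ _)

end Crest.Agent.R232
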