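import Crest.Agent.R232.Sample

set_option autoImplicit false

namespace Crest.Agent.R232

open Finset

theorem rpow_sub_le_aux {p x y : ℝ} (hp : 1 ≤ p) (hx : 0 ≤ x) (hxy : x ≤ y) :
    y ^ p - x ^ p ≤ p * y ^ (p - 1) * (y - x) := by
  rcases (hx.trans hxy).eq_or_lt with rfl | hy
  · obtain rfl : x = 0 := le_antisymm hxy hx
    simp
  have h := one_add_mul_self_le_rpow_one_add (s := x / y - 1)
    (by have : 0 ≤ x / y := by positivity
        linarith) hp
  rw [add_sub_cancel, Real.div_rpow hx hy.le, le_div_iff₀ (Real.rpow_pos_of_pos hy p)] at h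
  have e : p * y ^ (p - 1) * (y - x) = -(p * (x / y - 1) * y ^ p) := by
    rw [Real.rpow_sub_one hy.ne']; field_simp; ring
  rw [e]
  linarith

theorem abs_rpow_sub_le {p x y M : ℝ} (hp : 1 ≤ p) (hx : 0 ≤ x) (hy : 0 ≤ y) (hxM : x ≤ M)
    (hyM : y ≤ M) : |x ^ p - y ^ p| ≤ p * M ^ (p - 1) * |x - y| := by
  wlog h : x ≤ y generalizing x y
  · rw [abs_sub_comm, abs_sub_comm x]
    exact this hy hx hyM hxM (not_le.mp h).le
  rw [abs_sub_comm, abs_sub_comm x, abs_of_nonneg (sub_nonneg.mpr h),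
    abs_of_nonneg (sub_nonneg.mpr (Real.rpow_le_rpow hx h (by linarith)))]
  refine (rpow_sub_le_aux hp hx h).trans ?_
  have := Real.rpow_le_rpow hy hyM (show 0 ≤ p - 1 by linarith)
  have : 0 ≤ y - x := by linarith
  have : 0 ≤ p := by linarith
  gcongr

theorem add_rpow_err {p u v : ℝ} (hp : 1 < p) (h : |v| ≤ |u|) :
    |(|u + v| ^ p - |u| ^ p - |v| ^ p)| ≤ (p * 2 ^ (p - 1) + 1) * (|v| * |u| ^ (p - 1)) := by
  have a1 := abs_rpow_sub_le (x := |u + v|) (y := |u|) (M := 2 * |u|) hp.le (abs_nonneg _)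
    (abs_nonneg _) ((abs_add_le u v).trans (by linarith)) (by linarith [abs_nonneg u])
  have a2 : |(|u + v| - |u|)| ≤ |v| := by
    have := abs_abs_sub_abs_le_abs_sub (u + v) u
    rwa [add_sub_cancel_left] at this
  rw [Real.mul_rpow (by norm_num) (abs_nonneg _)] at a1
  have a3 : |v| ^ p ≤ |v| * |u| ^ (p - 1) := by
    have : |v| ^ p = |v| * |v| ^ (p - 1) := by
      rw [mul_comm, ← Real.rpow_add_one' (abs_nonneg _) (by linarith), sub_add_cancel]
    rw [this]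
    exact mul_le_mul_of_nonneg_left (Real.rpow_le_rpow (abs_nonneg _) h (by linarith)) (abs_nonneg _)
  have a4 := mul_le_mul_of_nonneg_left a2
    (show 0 ≤ p * (2 ^ (p - 1) * |u| ^ (p - 1)) by have : 0 ≤ p := by linarith
                                                   positivity)
  have a5 := abs_sub (|u + v| ^ p - |u| ^ p) (|v| ^ p)
  rw [abs_of_nonneg (show 0 ≤ |v| ^ p by positivity)] at a5
  linarith

theorem small_pow_le {r q a η : ℝ} {N n : ℕ} (hr : 0 < r) (hrq : r ≤ q) (hqn : q ≤ n)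
    (hN : 1 ≤ N * r) (hη : 0 < η) (hη1 : η ≤ 1) (ha : 0 ≤ a) :
    a ^ q ≤ η + 2 * n.factorial * (Real.exp a - 1) / η ^ N := by
  have hδ : 0 < η ^ N := by positivity
  have hδ1 : η ^ N ≤ 1 := pow_le_one₀ hη.le hη1
  have he : a ≤ Real.exp a - 1 := by linarith [Real.add_one_le_exp a]
  have hf : (1 : ℝ) ≤ n.factorial := by exact_mod_cast n.factorial_pos
  rcases le_total a (η ^ N) with h | h
  · have a1 : a ^ q ≤ (η ^ N) ^ q := Real.rpow_le_rpow ha h (by linarith)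
    have a2 : (η ^ N) ^ q ≤ η := by
      rw [← Real.rpow_natCast, ← Real.rpow_mul hη.le]
      conv_rhs => rw [← Real.rpow_one η]
      refine Real.rpow_le_rpow_of_exponent_ge hη hη1 (hN.trans ?_)
      gcongr
    have : 0 ≤ 2 * n.factorial * (Real.exp a - 1) / η ^ N := by
      have : 0 ≤ Real.exp a - 1 := by linarith
      positivity
    linarith
  refine le_add_of_nonneg_of_le hη.le ?_
  rw [le_div_iff₀ hδ]
  rcases le_total a 1 with h1 | h1
  · have a1 : a ^ q ≤ 1 := Real.rpow_le_one ha h1 (by linarith)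
    have a2 : a ^ q * η ^ N ≤ 1 * a := mul_le_mul a1 h hδ.le zero_le_one
    nlinarith
  · have a1 : a ^ q ≤ a ^ n := by
      rw [← Real.rpow_natCast]
      exact Real.rpow_le_rpow_of_exponent_le h1 hqn
    have a2 := Real.pow_div_factorial_le_exp a ha n
    rw [div_le_iff₀ (by linarith)] at a2
    have a3 : a ^ q * η ^ N ≤ a ^ q * 1 := mul_le_mul_of_nonneg_left hδ1 (by positivity)
    have a4 : Real.exp a ≤ 2 * (Real.exp a - 1) := by linarith
    have a5 := mul_le_mul_of_nonneg_right a4 (show (0 : ℝ) ≤ n.factorial by linarith)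
    linarith

theorem det_ineq {p : ℝ} (hp : 1 < p) : ∃ (c : ℝ) (N : ℕ), 1 ≤ c ∧ ∀ η s g : ℝ, 0 < η → η ≤ 1 →
    |g| ≤ 1 → |(|g + s| ^ p - |s| ^ p - |g| ^ p)| ≤ c * |g| * (η + (Real.exp |s| - 1) / η ^ N) := by
  set r := min (p - 1) 1 with hr
  have hr0 : 0 < r := lt_min (by linarith) one_pos
  have hr1 : r ≤ 1 := min_le_right _ _
  have hr2 : r ≤ p - 1 := min_le_left _ _
  obtain ⟨N, hN⟩ := exists_nat_ge (1 / r)
  rw [div_le_iff₀ hr0] at hN
  obtain ⟨n, hn⟩ := exists_nat_ge p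
  have hf : (1 : ℝ) ≤ n.factorial := by exact_mod_cast n.factorial_pos
  have hc0 : 1 ≤ p * 2 ^ (p - 1) + 1 := by
    have : 0 ≤ p * 2 ^ (p - 1) := by have : 0 ≤ p := by linarith
                                     positivity
    linarith
  refine ⟨(p * 2 ^ (p - 1) + 1) * (2 * n.factorial), N, by nlinarith, fun η s g hη hη1 hg => ?_⟩
  have key : ∀ q, r ≤ q → q ≤ n → |s| ^ q ≤ 2 * n.factorial * (η + (Real.exp |s| - 1) / η ^ N) := by
    intro q h1 h2
    refine (small_pow_le hr0 h1 h2 hN hη hη1 (abs_nonneg s)).trans ?_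
    rw [mul_add, mul_div_assoc]
    nlinarith
  have fin : ∀ q, r ≤ q → q ≤ n → (p * 2 ^ (p - 1) + 1) * (|g| * |s| ^ q)
      ≤ (p * 2 ^ (p - 1) + 1) * (2 * n.factorial) * |g| * (η + (Real.exp |s| - 1) / η ^ N) := by
    intro q h1 h2
    have := mul_le_mul_of_nonneg_left (mul_le_mul_of_nonneg_left (key q h1 h2) (abs_nonneg g))
      (show 0 ≤ p * 2 ^ (p - 1) + 1 by linarith)
    linarith
  rcases le_total |g| |s| with h | h
  · have := add_rpow_err hp h
    rw [add_comm s g] at this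
    exact this.trans (fin _ hr2 (by linarith))
  · have := add_rpow_err hp h
    rw [sub_right_comm] at this
    refine this.trans (le_trans (mul_le_mul_of_nonneg_left ?_ (by linarith)) (fin r le_rfl (by linarith)))
    have a1 : |g| ^ (p - 1) ≤ |g| ^ r := Real.rpow_le_rpow_of_exponent_ge' (abs_nonneg g) hg hr0.le hr2
    have a2 : |s| ^ (1 - r) ≤ |g| ^ (1 - r) := Real.rpow_le_rpow (abs_nonneg s) h (by linarith)
    have e1 : |s| = |s| ^ (1 - r) * |s| ^ r := by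
      rw [← Real.rpow_add' (abs_nonneg s) (by norm_num), sub_add_cancel, Real.rpow_one]
    have e2 : |g| = |g| ^ (1 - r) * |g| ^ r := by
      rw [← Real.rpow_add' (abs_nonneg g) (by norm_num), sub_add_cancel, Real.rpow_one]
    calc |s| * |g| ^ (p - 1) ≤ |s| * |g| ^ r := mul_le_mul_of_nonneg_left a1 (abs_nonneg s)
      _ = |s| ^ (1 - r) * |s| ^ r * |g| ^ r := by rw [← e1]
      _ ≤ |g| ^ (1 - r) * |s| ^ r * |g| ^ r := by gcongr
      _ = (|g| ^ (1 - r) * |g| ^ r) * |s| ^ r := by ring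
      _ = |g| * |s| ^ r := by rw [← e2]

variable {Ω : Type} [Fintype Ω]

/-- Product weights. -/
noncomputable def pw (μ : Ω → ℝ) (M : ℕ) (ω : Fin M → Ω) : ℝ := ∏ a, μ (ω a)

omit [Fintype Ω] in
theorem pw_nonneg {μ : Ω → ℝ} (h0 : ∀ ω, 0 ≤ μ ω) (M : ℕ) (ω : Fin M → Ω) : 0 ≤ pw μ M ω :=
  prod_nonneg fun _ _ => h0 _

theorem pw_prod (μ f : Ω → ℝ) (M : ℕ) :
    ∑ ω : Fin M → Ω, pw μ M ω * ∏ a, f (ω a) = (∑ x, μ x * f x) ^ M := by
  classical
  rw [Fintype.sum_pow]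
  exact sum_congr rfl fun ω _ => by rw [pw, prod_mul_distrib]

theorem pw_sum {μ : Ω → ℝ} (h1 : ∑ ω, μ ω = 1) (M : ℕ) : ∑ ω : Fin M → Ω, pw μ M ω = 1 := by
  simpa [h1] using pw_prod μ (fun _ => 1) M

theorem pw_succ (μ : Ω → ℝ) (M : ℕ) (f : (Fin (M + 1) → Ω) → ℝ) :
    ∑ ω, pw μ (M + 1) ω * f ω = ∑ x, μ x * ∑ ω, pw μ M ω * f (Fin.cons x ω) := by
  rw [← (Fin.consEquiv fun _ => Ω).sum_comp, Fintype.sum_prod_type]
  refine sum_congr rfl fun x _ => ?_
  rw [mul_sum]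
  refine sum_congr rfl fun ω _ => ?_
  simp [pw, Fin.consEquiv, Fin.prod_univ_succ, mul_assoc]

theorem pw_exp {μ g : Ω → ℝ} (h0 : ∀ ω, 0 ≤ μ ω) (h1 : ∑ ω, μ ω = 1) (hg : ∀ x, |g x| ≤ 1) {κ : ℝ}
    (hκ : ∑ x, μ x * |g x| ≤ κ) (M : ℕ) :
    ∑ ω : Fin M → Ω, pw μ M ω * Real.exp (∑ a, |g (ω a)|) ≤ Real.exp (2 * (M * κ)) := by
  simp_rw [Real.exp_sum]
  rw [pw_prod μ (fun x => Real.exp |g x|), show 2 * (M * κ) = M * (2 * κ) by ring, Real.exp_nat_mul]
  refine pow_le_pow_left₀ (sum_nonneg fun x _ => mul_nonneg (h0 x) (Real.exp_pos _).le) ?_ M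
  have a1 : ∀ x, μ x * Real.exp |g x| ≤ μ x + 2 * (μ x * |g x|) := fun x => by
    have b1 := (abs_le.mp (Real.abs_exp_sub_one_sub_id_le (x := |g x|) (by rw [abs_abs]; exact hg x))).2
    have b2 : |g x| ^ 2 ≤ |g x| := by nlinarith [abs_nonneg (g x), hg x]
    have := mul_le_mul_of_nonneg_left (show Real.exp |g x| ≤ 1 + 2 * |g x| by linarith) (h0 x)
    linarith
  refine (sum_le_sum fun x _ => a1 x).trans ?_
  rw [sum_add_distrib, h1, ← mul_sum]
  linarith [Real.add_one_le_exp (2 * κ)]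

theorem hash_bias {p c η : ℝ} {N : ℕ} (hp : 1 < p) (hc : 0 ≤ c) (hη : 0 < η)
    (hdet : ∀ s g : ℝ, |g| ≤ 1 →
      |(|g + s| ^ p - |s| ^ p - |g| ^ p)| ≤ c * |g| * (η + (Real.exp |s| - 1) / η ^ N))
    {μ g : Ω → ℝ} (h0 : ∀ ω, 0 ≤ μ ω) (h1 : ∑ ω, μ ω = 1) (hg : ∀ x, |g x| ≤ 1) {κ τ : ℝ}
    (hκ : ∑ x, μ x * |g x| ≤ κ) (hτ : 0 ≤ τ) (k : ℕ) (hk : k * κ ≤ τ + κ) :
    |∑ ω : Fin k → Ω, pw μ k ω * |∑ a, g (ω a)| ^ p - k * ∑ x, μ x * |g x| ^ p|
      ≤ k * (c * κ * (η + (Real.exp (2 * τ) - 1) / η ^ N)) := by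
  have hκ0 : 0 ≤ κ := (sum_nonneg fun x _ => mul_nonneg (h0 x) (abs_nonneg _)).trans hκ
  induction k with
  | zero => simp [Real.zero_rpow (show p ≠ 0 by linarith)]
  | succ k ih =>
    push_cast at hk ⊢
    have ih := ih (by linarith)
    rw [pw_succ]
    simp only [Fin.sum_univ_succ, Fin.cons_zero, Fin.cons_succ]
    set D := η + (Real.exp (2 * τ) - 1) / η ^ N with hD
    have hD0 : 0 ≤ D := by
      have : 0 ≤ Real.exp (2 * τ) - 1 := by linarith [Real.add_one_le_exp (2 * τ)]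
      positivity
    have hE : ∑ ω : Fin k → Ω, pw μ k ω * (η + (Real.exp |∑ a, g (ω a)| - 1) / η ^ N) ≤ D := by
      have b1 := (pw_exp h0 h1 hg hκ k).trans (Real.exp_le_exp.mpr (show 2 * (k * κ) ≤ 2 * τ by linarith))
      have b2 : ∑ ω : Fin k → Ω, pw μ k ω * Real.exp |∑ a, g (ω a)| ≤ Real.exp (2 * τ) :=
        (sum_le_sum fun ω _ => mul_le_mul_of_nonneg_left
          (Real.exp_le_exp.mpr (abs_sum_le_sum_abs _ _)) (pw_nonneg h0 k ω)).trans b1
      simp_rw [mul_add, ← mul_div_assoc, mul_sub]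
      rw [sum_add_distrib, ← sum_div, sum_sub_distrib, ← sum_mul, ← sum_mul, pw_sum h1, one_mul,
        one_mul, hD]
      gcongr
    have step : ∀ x, |∑ ω : Fin k → Ω, pw μ k ω * |g x + ∑ a, g (ω a)| ^ p
        - ∑ ω : Fin k → Ω, pw μ k ω * |∑ a, g (ω a)| ^ p - |g x| ^ p| ≤ c * |g x| * D := by
      intro x
      have e : ∑ ω : Fin k → Ω, pw μ k ω * |g x + ∑ a, g (ω a)| ^ p
          - ∑ ω : Fin k → Ω, pw μ k ω * |∑ a, g (ω a)| ^ p - |g x| ^ p
          = ∑ ω : Fin k → Ω, pw μ k ω *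
            (|g x + ∑ a, g (ω a)| ^ p - |∑ a, g (ω a)| ^ p - |g x| ^ p) := by
        simp_rw [mul_sub]
        rw [sum_sub_distrib, sum_sub_distrib, ← sum_mul, pw_sum h1, one_mul]
      rw [e]
      refine (abs_sum_le_sum_abs _ _).trans (le_trans (sum_le_sum fun ω _ => ?_)
        (le_trans (le_of_eq (mul_sum _ _ _).symm)
          (mul_le_mul_of_nonneg_left hE (mul_nonneg hc (abs_nonneg (g x))))))
      rw [abs_mul, abs_of_nonneg (pw_nonneg h0 k ω), mul_left_comm]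
      exact mul_le_mul_of_nonneg_left (hdet _ _ (hg x)) (pw_nonneg h0 k ω)
    set Q := ∑ ω : Fin k → Ω, pw μ k ω * |∑ a, g (ω a)| ^ p with hQ
    have e2 : ∑ x, μ x * ∑ ω : Fin k → Ω, pw μ k ω * |g x + ∑ a, g (ω a)| ^ p
        - (k + 1) * ∑ x, μ x * |g x| ^ p
        = ∑ x, μ x * (∑ ω : Fin k → Ω, pw μ k ω * |g x + ∑ a, g (ω a)| ^ p - Q - |g x| ^ p)
          + (Q - k * ∑ x, μ x * |g x| ^ p) := by
      simp_rw [mul_sub]
      rw [sum_sub_distrib, sum_sub_distrib, ← sum_mul, h1]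
      ring
    rw [e2]
    refine (abs_add_le _ _).trans ?_
    have b3 : |∑ x, μ x * (∑ ω : Fin k → Ω, pw μ k ω * |g x + ∑ a, g (ω a)| ^ p - Q - |g x| ^ p)|
        ≤ c * κ * D := by
      refine (abs_sum_le_sum_abs _ _).trans (le_trans (sum_le_sum (g := fun x =>
        c * D * (μ x * |g x|)) fun x _ => ?_) ?_)
      · rw [abs_mul, abs_of_nonneg (h0 x)]
        have := mul_le_mul_of_nonneg_left (step x) (h0 x)
        linarith
      · rw [← mul_sum]
        have := mul_le_mul_of_nonneg_left hκ (mul_nonneg hc hD0)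
        linarith
    linarith

theorem rpow_envelope {p x R : ℝ} {n : ℕ} (hp : 0 ≤ p) (hn : p ≤ n) (hx : 0 ≤ x) (hR : 0 ≤ R) :
    x ^ p ≤ 2 ^ n * ((R + 1) ^ n + n.factorial * Real.exp (x - R)) := by
  have hf : (1 : ℝ) ≤ n.factorial := by exact_mod_cast n.factorial_pos
  rcases le_total x (2 * (R + 1)) with h | h
  · have a1 : x ^ p ≤ (2 * (R + 1)) ^ p := Real.rpow_le_rpow hx h hp
    have a2 : (2 * (R + 1)) ^ p ≤ (2 * (R + 1)) ^ n := by
      rw [← Real.rpow_natCast]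
      exact Real.rpow_le_rpow_of_exponent_le (by linarith) hn
    rw [mul_pow] at a2
    refine (a1.trans a2).trans (mul_le_mul_of_nonneg_left (le_add_of_nonneg_right (by positivity))
      (by positivity))
  · have a1 : x ^ p ≤ x ^ n := by
      rw [← Real.rpow_natCast]
      exact Real.rpow_le_rpow_of_exponent_le (by linarith) hn
    have a2 : x ^ n ≤ (2 * (x - R)) ^ n := pow_le_pow_left₀ hx (by linarith) n
    have a3 := Real.pow_div_factorial_le_exp (x - R) (by linarith) n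
    rw [div_le_iff₀ (by linarith), mul_comm] at a3
    rw [mul_pow] at a2
    exact (a1.trans a2).trans (mul_le_mul_of_nonneg_left (le_add_of_nonneg_of_le (by positivity) a3)
      (by positivity))

theorem exists_pow_ge (c : ℝ) : ∃ k : ℕ, ∀ Z : ℝ, 2 ≤ Z → c ≤ Z ^ k := by
  obtain ⟨k, hk⟩ := pow_unbounded_of_one_lt c (show (1 : ℝ) < 2 by norm_num)
  exact ⟨k, fun Z hZ => hk.le.trans (pow_le_pow_left₀ (by norm_num) hZ k)⟩

/-- One level, normalised. -/
theorem hash_level (p : ℝ) (hp : 1 < p) : ∃ C : ℕ, ∀ (E Ω : Type) [Fintype E] [Fintype Ω]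
    (μ : Ω → ℝ), (∀ ω, 0 ≤ μ ω) → ∑ ω, μ ω = 1 → ∀ (G : E → Ω → ℝ) (κ A ε Z : ℝ), 0 < κ → κ ≤ 1 →
    0 ≤ A → A * κ ≤ Z ^ p → (∀ e x, |G e x| ≤ 1) → (∀ e, ∑ x, μ x * |G e x| ≤ κ) → 0 < ε → ε ≤ 1 →
    2 ≤ Z → (Fintype.card E : ℝ) ≤ Real.exp (2 * Z) → 1 / ε ≤ Z → ∀ d : ℕ, Z ^ C ≤ d →
    ∃ (M : ℕ) (ω : Fin d → Fin M → Ω) (lam : Fin d → ℝ), (∀ k, 0 ≤ lam k) ∧ ∀ e,
      |∑ k, lam k * (A * |∑ a, G e (ω k a)| ^ p) - A * ∑ x, μ x * |G e x| ^ p| ≤ ε := by
  obtain ⟨c, N, hc, hdet⟩ := det_ineq hp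
  obtain ⟨n, hn⟩ := exists_nat_ge p
  obtain ⟨k1, hk1⟩ := exists_pow_ge (6 * c)
  obtain ⟨k2, hk2⟩ := exists_pow_ge (n.factorial * Real.exp 4)
  set a := k1 + n + 1 with ha
  set b := n + (1 + a * (N + 1)) + (n + (1 + (3 * n + k2))) with hb
  refine ⟨2 * b + 9, fun E Ω _ _ μ h0 h1 G κ A ε Z hκ hκ1 hA hAκ hG hGκ hε hε1 hZ hE hεZ d hd => ?_⟩
  have hZ1 : 1 ≤ Z := by linarith
  have hZ0 : 0 < Z := by linarith
  have hZn : A * κ ≤ Z ^ n := by
    refine hAκ.trans ?_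
    rw [← Real.rpow_natCast]
    exact Real.rpow_le_rpow_of_exponent_le hZ1 hn
  set η := 1 / Z ^ a with hη
  have hη0 : 0 < η := by positivity
  have hη1 : η ≤ 1 := by rw [hη, div_le_one (by positivity)]; exact one_le_pow₀ hZ1
  set τ := η ^ (N + 1) / 2 with hτ
  have hτ0 : 0 < τ := by positivity
  have hτ1 : 2 * τ ≤ 1 := by
    have := pow_le_one₀ (n := N + 1) hη0.le hη1
    linarith
  set M := ⌊τ / κ⌋₊ + 1 with hM
  have hM1 : τ ≤ M * κ := by
    rw [← div_le_iff₀ hκ, hM]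
    push_cast
    exact (Nat.lt_floor_add_one _).le
  have hM2 : M * κ ≤ τ + κ := by
    have := Nat.floor_le (show 0 ≤ τ / κ by positivity)
    rw [le_div_iff₀ hκ] at this
    rw [hM]
    push_cast
    linarith
  have hM0 : (0 : ℝ) < M := by rw [hM]; positivity
  have hAM : A / M ≤ Z ^ n * (Z * Z ^ (a * (N + 1))) := by
    have e1 : A / M = A * κ * (1 / (M * κ)) := by field_simp
    have e2 : 1 / τ = 2 * Z ^ (a * (N + 1)) := by
      rw [hτ, hη, one_div_pow, ← pow_mul]; field_simp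
    rw [e1]
    refine mul_le_mul hZn ((one_div_le_one_div_of_le hτ0 hM1).trans ?_) (by positivity) (by positivity)
    rw [e2]
    gcongr
  set Q := Z ^ n * (Z * Z ^ (a * (N + 1))) with hQ
  have hQ0 : 0 < Q := by positivity
  obtain ⟨ω, lam, hlam, hs⟩ := importance_sample (E := E) (pw μ M) (pw_nonneg h0 M) (pw_sum h1 M)
    (fun e ω => A / M * |∑ a, G e (ω a)| ^ p)
    (fun ω => Q * (2 ^ n * ((2 * Z + 1) ^ n
      + n.factorial * ∑ e, Real.exp (∑ a, |G e (ω a)| - 2 * Z))))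
    (fun e ω => by positivity) (fun e ω => by
      refine mul_le_mul hAM ?_ (by positivity) hQ0.le
      refine (Real.rpow_le_rpow (abs_nonneg _) (abs_sum_le_sum_abs _ _) (by linarith)).trans
        ((rpow_envelope (R := 2 * Z) (by linarith) hn (by positivity) (by positivity)).trans ?_)
      gcongr
      exact single_le_sum (f := fun e => Real.exp (∑ a, |G e (ω a)| - 2 * Z))
        (fun _ _ => (Real.exp_pos _).le) (mem_univ e))
    (fun ω => by positivity) (B := Z ^ b) (ε := ε / 2) (R := 2 * Z) (by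
      have a1 : ∑ ω : Fin M → Ω, pw μ M ω * ∑ e, Real.exp (∑ a, |G e (ω a)| - 2 * Z) ≤ Real.exp 4 := by
        simp_rw [mul_sum]
        rw [sum_comm]
        refine (sum_le_sum (g := fun _ => Real.exp 4 / Real.exp (2 * Z)) fun e _ => ?_).trans ?_
        · simp_rw [Real.exp_sub, ← mul_div_assoc]
          rw [← sum_div]
          refine div_le_div_of_nonneg_right ((pw_exp h0 h1 (hG e) (hGκ e) M).trans
            (Real.exp_le_exp.mpr (by linarith))) (Real.exp_pos _).le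
        · rw [sum_const, card_univ, nsmul_eq_mul, ← mul_div_assoc, div_le_iff₀ (Real.exp_pos _),
            mul_comm]
          exact mul_le_mul_of_nonneg_left hE (Real.exp_pos _).le
      have e1 : ∑ ω : Fin M → Ω, pw μ M ω * (Q * (2 ^ n * ((2 * Z + 1) ^ n
          + n.factorial * ∑ e, Real.exp (∑ a, |G e (ω a)| - 2 * Z))))
          = Q * (2 ^ n * ((2 * Z + 1) ^ n + n.factorial *
            ∑ ω : Fin M → Ω, pw μ M ω * ∑ e, Real.exp (∑ a, |G e (ω a)| - 2 * Z))) := by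
        simp_rw [mul_left_comm (pw μ M _), mul_add (pw μ M _), mul_left_comm (pw μ M _)]
        rw [← mul_sum, ← mul_sum, sum_add_distrib, ← sum_mul, pw_sum h1, one_mul, ← mul_sum]
      rw [e1]
      have a2 : (2 * Z + 1) ^ n ≤ Z ^ (3 * n + k2) := by
        have : 2 * Z + 1 ≤ Z ^ 3 := by nlinarith [mul_le_mul hZ hZ (by norm_num) hZ0.le]
        refine (pow_le_pow_left₀ (by positivity) this n).trans ?_
        rw [← pow_mul]
        exact pow_le_pow_right₀ hZ1 (by omega)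
      have a3 : n.factorial * ∑ ω : Fin M → Ω, pw μ M ω *
          ∑ e, Real.exp (∑ a, |G e (ω a)| - 2 * Z) ≤ Z ^ (3 * n + k2) :=
        ((mul_le_mul_of_nonneg_left a1 (by positivity)).trans (hk2 Z hZ)).trans
          (pow_le_pow_right₀ hZ1 (by omega))
      have a4 : (2 * Z + 1) ^ n + n.factorial * ∑ ω : Fin M → Ω, pw μ M ω *
          ∑ e, Real.exp (∑ a, |G e (ω a)| - 2 * Z) ≤ Z * Z ^ (3 * n + k2) := by
        have := mul_le_mul_of_nonneg_right hZ (show 0 ≤ Z ^ (3 * n + k2) by positivity)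
        linarith
      have a5 : (2 : ℝ) ^ n ≤ Z ^ n := pow_le_pow_left₀ (by norm_num) hZ n
      have a6 := mul_le_mul_of_nonneg_left a4 (show (0 : ℝ) ≤ 2 ^ n by positivity)
      have a7 := mul_le_mul_of_nonneg_right a5 (show 0 ≤ Z * Z ^ (3 * n + k2) by positivity)
      refine (mul_le_mul_of_nonneg_left (a6.trans a7) hQ0.le).trans (le_of_eq ?_)
      rw [hQ, hb]
      ring)
    (by positivity) (by linarith [one_le_pow₀ (n := b) hZ1]) (by positivity) hE (d := d) (by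
      refine le_trans ?_ hd
      have e1 : 4 * (Z ^ b) ^ 2 * (2 * Z + 1) / (ε / 2) ^ 2
          = (Z ^ b) ^ 2 * (2 ^ 4 * ((2 * Z + 1) * (1 / ε) ^ 2)) := by field_simp; ring
      have e2 : Z ^ (2 * b + 9) = (Z ^ b) ^ 2 * (Z ^ 4 * (Z ^ 3 * Z ^ 2)) := by ring
      have : 2 * Z + 1 ≤ Z ^ 3 := by nlinarith [mul_le_mul hZ hZ (by norm_num) hZ0.le]
      rw [e1, e2]
      gcongr)
  refine ⟨M, ω, fun k => lam k / M, fun k => div_nonneg (hlam k) hM0.le, fun e => ?_⟩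
  have b1 := hs e
  have b2 := hash_bias hp (by linarith) hη0 (fun s g hg => hdet η s g hη0 hη1 hg) h0 h1 (hG e)
    (hGκ e) hτ0.le M hM2
  have b3 : (Real.exp (2 * τ) - 1) / η ^ N ≤ 2 * η := by
    rw [div_le_iff₀ (by positivity)]
    have c1 := (abs_le.mp (Real.abs_exp_sub_one_sub_id_le (x := 2 * τ)
      (by rw [abs_of_pos (by positivity)]; exact hτ1))).2
    have c2 : (2 * τ) ^ 2 ≤ 2 * τ := by nlinarith
    have c3 : 2 * τ = η * η ^ N := by rw [hτ]; ring
    linarith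
  have b4 : A / M * (M * (c * κ * (η + (Real.exp (2 * τ) - 1) / η ^ N))) ≤ ε / 2 := by
    have e1 : A / M * (M * (c * κ * (η + (Real.exp (2 * τ) - 1) / η ^ N)))
        = A * κ * (c * (η + (Real.exp (2 * τ) - 1) / η ^ N)) := by field_simp
    have c1 : c * (η + (Real.exp (2 * τ) - 1) / η ^ N) ≤ c * (3 * η) :=
      mul_le_mul_of_nonneg_left (by linarith) (by linarith)
    have c2 : A * κ * (c * (3 * η)) ≤ Z ^ n * (c * (3 * η)) :=
      mul_le_mul_of_nonneg_right hZn (by have : 0 ≤ c := by linarith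
                                         positivity)
    have c3 : Z ^ n * (c * (3 * η)) ≤ ε / 2 := by
      have d1 : Z ^ n * (c * (3 * η)) = 6 * c / Z ^ k1 * (1 / Z) / 2 := by
        rw [hη, ha]; field_simp; ring
      have d2 : 6 * c / Z ^ k1 ≤ 1 := by rw [div_le_one (by positivity)]; exact hk1 Z hZ
      have d3 : 1 / Z ≤ ε := (one_div_le hε hZ0).mp hεZ
      have d4 := mul_le_mul d2 d3 (by positivity) zero_le_one
      linarith
    rw [e1]
    exact ((mul_le_mul_of_nonneg_left c1 (by positivity)).trans c2).trans c3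
  have b5 := (mul_le_mul_of_nonneg_left b2 (show 0 ≤ A / M by positivity)).trans b4
  rw [← abs_of_nonneg (show 0 ≤ A / M by positivity), ← abs_mul, mul_sub, mul_sum] at b5
  have e1 : A / M * (M * ∑ x, μ x * |G e x| ^ p) = A * ∑ x, μ x * |G e x| ^ p := by field_simp
  have e2 : ∑ k, lam k / M * (A * |∑ a, G e (ω k a)| ^ p)
      = ∑ k, lam k * (A / M * |∑ a, G e (ω k a)| ^ p) := sum_congr rfl fun k _ => by ring
  simp_rw [mul_left_comm (A / M)] at b5
  rw [← mul_left_comm (A / M), e1] at b5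
  rw [e2]
  exact (abs_sub_le _ _ _).trans (by linarith [add_le_add b1 b5])

theorem hash_sample (p : ℝ) (hp : 1 < p) : ∃ C : ℕ, ∀ (X Ω : Type) [Fintype X] [Fintype Ω] (μ : Ω → ℝ), (∀ ω, 0 ≤ μ ω) → ∑ ω, μ ω = 1 →
  ∀ (t : X → X → ℝ), (∀ i j, 0 < t i j) → ∀ (m : ℕ) (H : Fin m → X → Ω → ℝ) (U w : Fin m → ℝ) (J ε Z : ℝ),
  (∀ l, 0 < w l) → (∀ l, w l ≤ U l) → 1 ≤ J → (∀ l, w l * U l ^ (p - 1) ≤ J ^ p) →
  (∀ l i j ω, |H l i ω - H l j ω| ≤ U l * t i j) → (∀ l i j, ∑ ω, μ ω * |H l i ω - H l j ω| ≤ w l * t i j) →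
  0 < ε → ε ≤ 1 → 2 ≤ Z → (m : ℝ) ≤ Z → J ≤ Z → Real.log (Fintype.card X) ≤ Z → 1 / ε ≤ Z →
  ∃ d : ℕ, (d : ℝ) ≤ Z ^ C ∧ ∃ y : X → Fin d → ℝ, ∀ i j,
    |∑ k, |y i k - y j k| ^ p - ∑ l, ∑ ω, μ ω * |H l i ω - H l j ω| ^ p| ≤ ε * t i j ^ p := by
  obtain ⟨C, hC⟩ := hash_level p hp
  refine ⟨2 * C + 2, fun X Ω _ _ μ h0 h1 t ht m H U w J ε Z hw hwU hJ hJp hH hH1 hε hε1 hZ hm hJZ
    hX hεZ => ?_⟩
  have hZ1 : 1 ≤ Z := by linarith
  have hZ0 : 0 < Z := by linarith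
  have hZ2 : Z ≤ Z ^ 2 := le_self_pow₀ hZ1 (by norm_num)
  have hU : ∀ l, 0 < U l := fun l => (hw l).trans_le (hwU l)
  have hcard : (Fintype.card (X × X) : ℝ) ≤ Real.exp (2 * Z ^ 2) := by
    have a1 : (Fintype.card X : ℝ) ≤ Real.exp (Z ^ 2) :=
      (Real.le_exp_log _).trans (Real.exp_le_exp.mpr (hX.trans hZ2))
    rw [Fintype.card_prod, two_mul, Real.exp_add]
    push_cast
    exact mul_le_mul a1 a1 (by positivity) (by positivity)
  set d := ⌈(Z ^ 2) ^ C⌉₊ with hd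
  have key := fun l : Fin m => hC (X × X) Ω μ h0 h1
    (fun e x => (H l e.1 x - H l e.2 x) / (U l * t e.1 e.2)) (w l / U l) (U l ^ p) (ε / Z) (Z ^ 2)
    (div_pos (hw l) (hU l)) ((div_le_one (hU l)).mpr (hwU l)) (Real.rpow_nonneg (hU l).le p)
    (by
      have a1 := hJp l
      rw [Real.rpow_sub_one (hU l).ne'] at a1
      have a2 : J ^ p ≤ (Z ^ 2) ^ p := Real.rpow_le_rpow (by linarith) (hJZ.trans hZ2) (by linarith)
      refine le_trans (le_of_eq ?_) (a1.trans a2)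
      ring)
    (fun e x => by
      have := mul_pos (hU l) (ht e.1 e.2)
      rw [abs_div, abs_of_pos this, div_le_one this]
      exact hH l _ _ x)
    (fun e => by
      have := mul_pos (hU l) (ht e.1 e.2)
      simp_rw [abs_div, abs_of_pos this, ← mul_div_assoc]
      rw [← sum_div, div_le_iff₀ this]
      refine (hH1 l _ _).trans (le_of_eq ?_)
      have := (hU l).ne'
      field_simp)
    (by positivity) ((div_le_one hZ0).mpr (by linarith)) (by linarith) hcard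
    (by
      rw [one_div_div, div_eq_mul_one_div, sq]
      exact mul_le_mul_of_nonneg_left hεZ hZ0.le) d (Nat.le_ceil _)
  choose M ω lam hlam hs using key
  set y : X → Fin m × Fin d → ℝ :=
    fun i q => lam q.1 q.2 ^ (1 / p) * ∑ a, H q.1 i (ω q.1 q.2 a) with hy
  refine ⟨m * d, ?_, fun i k => y i (finProdFinEquiv.symm k), fun i j => ?_⟩
  · push_cast
    have a1 : (d : ℝ) ≤ (Z ^ 2) ^ C + 1 := (Nat.ceil_lt_add_one (by positivity)).le
    have a2 : 1 ≤ (Z ^ 2) ^ C := one_le_pow₀ (by linarith)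
    have a3 := mul_le_mul_of_nonneg_right hZ (show 0 ≤ (Z ^ 2) ^ C by positivity)
    have a4 : (d : ℝ) ≤ Z * (Z ^ 2) ^ C := by linarith
    refine (mul_le_mul hm a4 (by positivity) hZ0.le).trans (le_of_eq ?_)
    ring
  · rw [finProdFinEquiv.symm.sum_comp (fun q => |y i q - y j q| ^ p), Fintype.sum_prod_type,
      ← sum_sub_distrib]
    have htp : 0 < t i j ^ p := Real.rpow_pos_of_pos (ht i j) p
    refine (abs_sum_le_sum_abs _ _).trans
      ((sum_le_sum (g := fun _ => ε / Z * t i j ^ p) fun l _ => ?_).trans ?_)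
    · have a1 := mul_le_mul_of_nonneg_right (hs l (i, j)) htp.le
      rw [← abs_of_pos htp, ← abs_mul, abs_of_pos htp, sub_mul, sum_mul] at a1
      have hUt := mul_pos (hU l) (ht i j)
      have hUp : U l ^ p ≠ 0 := (Real.rpow_pos_of_pos (hU l) p).ne'
      refine le_trans (le_of_eq (congrArg abs (congrArg₂ (· - ·) ?_ ?_))) a1
      · refine sum_congr rfl fun k _ => ?_
        simp only [hy]
        rw [← mul_sub, ← sum_sub_distrib, abs_mul, Real.mul_rpow (abs_nonneg _) (abs_nonneg _),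
          abs_of_nonneg (Real.rpow_nonneg (hlam l k) _), ← Real.rpow_mul (hlam l k),
          one_div_mul_cancel (by linarith), Real.rpow_one, ← sum_div, abs_div, abs_of_pos hUt,
          Real.div_rpow (abs_nonneg _) hUt.le, Real.mul_rpow (hU l).le (ht i j).le]
        field_simp
      · rw [mul_sum, sum_mul]
        refine sum_congr rfl fun x _ => ?_
        rw [abs_div, abs_of_pos hUt, Real.div_rpow (abs_nonneg _) hUt.le,
          Real.mul_rpow (hU l).le (ht i j).le]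
        field_simp
    · rw [sum_const, card_univ, Fintype.card_fin, nsmul_eq_mul, ← mul_assoc]
      refine mul_le_mul_of_nonneg_right ?_ htp.le
      rw [← mul_div_assoc, div_le_iff₀ hZ0, mul_comm]
      exact mul_le_mul_of_nonneg_left hm hε.le

end Crest.Agent.R232
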