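import Mathlib

/-! Entropy dissipation for lazy reversible chains (used for the localization of electrical flows). -/

set_option autoImplicit false

namespace Crest.Agent.R232
open Finset

lemma ent_pt (a b : ℝ) (ha : 0 ≤ a) (hb : 0 < b) :
    (√a - √b) ^ 2 ≤ a * Real.log a - a * Real.log b - a + b := by
  rcases ha.eq_or_lt with h0 | ha
  · subst h0
    simp [Real.sq_sqrt hb.le]
  obtain ⟨α, hα⟩ : ∃ α, α = √a := ⟨_, rfl⟩
  obtain ⟨β, hβ⟩ : ∃ β, β = √b := ⟨_, rfl⟩
  have hα0 : 0 < α := hα ▸ Real.sqrt_pos.mpr ha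
  have hβ0 : 0 < β := hβ ▸ Real.sqrt_pos.mpr hb
  have ha' : a = α ^ 2 := by rw [hα, Real.sq_sqrt ha.le]
  have hb' : b = β ^ 2 := by rw [hβ, Real.sq_sqrt hb.le]
  rw [← hα, ← hβ, ha', hb', Real.log_pow, Real.log_pow]
  have h1 := Real.log_le_sub_one_of_pos (div_pos hβ0 hα0)
  rw [Real.log_div hβ0.ne' hα0.ne'] at h1
  have h2 : α ^ 2 * (Real.log β - Real.log α) ≤ α ^ 2 * (β / α - 1) :=
    mul_le_mul_of_nonneg_left h1 (by positivity)
  have h3 : α ^ 2 * (β / α - 1) = α * β - α ^ 2 := by field_simp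
  push_cast
  nlinarith

structure Chain {X : Type*} [Fintype X] (m : X → ℝ) (P : Matrix X X ℝ) : Prop where
  mpos : ∀ x, 0 < m x
  nonneg : ∀ x y, 0 ≤ P x y
  rowsum : ∀ x, ∑ y, P x y = 1
  rev : ∀ x y, m x * P x y = m y * P y x
  lazy : ∀ x, 1 / 2 ≤ P x x

variable {X : Type*} [Fintype X] [DecidableEq X] {m : X → ℝ} {P : Matrix X X ℝ}

omit [DecidableEq X] in
lemma Chain.row_drop (h : Chain m P) (f : X → ℝ) (hf : ∀ x, 0 ≤ f x) (x : X) :
    ∑ y, P x y * (√(f x) - √(f y)) ^ 2 ≤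
      6 * (∑ y, P x y * (f y * Real.log (f y)) -
        (∑ y, P x y * f y) * Real.log (∑ y, P x y * f y)) := by
  obtain ⟨s, hs⟩ : ∃ s, s = ∑ y, P x y * f y := ⟨_, rfl⟩
  rw [← hs]
  have hs0 : 0 ≤ s := hs ▸ sum_nonneg fun y _ => mul_nonneg (h.nonneg x y) (hf y)
  have hterm : ∀ y, P x y * (√(f y) - √s) ^ 2 ≤
      P x y * (f y * Real.log (f y) - f y * Real.log s - f y + s) := by
    intro y
    rcases hs0.eq_or_lt with h0 | hpos
    · have hz : P x y * f y = 0 := by
        have := (sum_eq_zero_iff_of_nonneg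
          (fun y _ => mul_nonneg (h.nonneg x y) (hf y))).mp (hs.symm.trans h0.symm) y (mem_univ _)
        exact this
      rcases mul_eq_zero.mp hz with h1 | h1
      · simp [h1]
      · simp [h1, ← h0]
    · exact mul_le_mul_of_nonneg_left (ent_pt _ _ (hf y) hpos) (h.nonneg x y)
  obtain ⟨V, hV⟩ : ∃ V, V = ∑ y, P x y * (√(f y) - √s) ^ 2 := ⟨_, rfl⟩
  have hV1 : V ≤ ∑ y, P x y * (f y * Real.log (f y)) - s * Real.log s := by
    rw [hV]
    refine (sum_le_sum fun y _ => hterm y).trans (le_of_eq ?_)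
    have e1 : ∀ y, P x y * (f y * Real.log (f y) - f y * Real.log s - f y + s) =
        P x y * (f y * Real.log (f y)) - (P x y * f y) * Real.log s - P x y * f y + P x y * s := by
      intro y; ring
    simp_rw [e1]
    rw [sum_add_distrib, sum_sub_distrib, sum_sub_distrib, ← sum_mul, ← sum_mul, ← hs, h.rowsum]
    ring
  have hV2 : P x x * (√(f x) - √s) ^ 2 ≤ V := by
    rw [hV]
    exact single_le_sum (f := fun y => P x y * (√(f y) - √s) ^ 2)
      (fun y _ => mul_nonneg (h.nonneg x y) (sq_nonneg _)) (mem_univ x)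
  have hV3 : (√(f x) - √s) ^ 2 ≤ 2 * V := by
    have := mul_le_mul_of_nonneg_right (h.lazy x) (sq_nonneg (√(f x) - √s))
    linarith
  have hterm2 : ∀ y, P x y * (√(f x) - √(f y)) ^ 2 ≤
      2 * (P x y * (√(f y) - √s) ^ 2) + P x y * (4 * V) := by
    intro y
    have h1 : (√(f x) - √(f y)) ^ 2 ≤ 2 * (√(f y) - √s) ^ 2 + 4 * V := by
      nlinarith [sq_nonneg (√(f x) + √(f y) - 2 * √s)]
    have := mul_le_mul_of_nonneg_left h1 (h.nonneg x y)
    linarith
  refine (sum_le_sum fun y _ => hterm2 y).trans ?_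
  rw [sum_add_distrib, ← mul_sum, ← sum_mul, h.rowsum, ← hV]
  linarith

omit [DecidableEq X] in
lemma Chain.colsum (h : Chain m P) (y : X) : ∑ x, m x * P x y = m y := by
  simp_rw [fun x => h.rev x y]
  rw [← mul_sum, h.rowsum, mul_one]

/-- entropy -/
noncomputable def ent (m f : X → ℝ) : ℝ := ∑ x, m x * (f x * Real.log (f x))

/-- Dirichlet form of the square root -/
noncomputable def dir (m : X → ℝ) (P : Matrix X X ℝ) (f : X → ℝ) : ℝ :=
  ∑ x, ∑ y, m x * P x y * (√(f x) - √(f y)) ^ 2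

omit [DecidableEq X] in
lemma Chain.ent_drop (h : Chain m P) (f : X → ℝ) (hf : ∀ x, 0 ≤ f x) :
    dir m P f ≤ 6 * (ent m f - ent m (fun x => ∑ y, P x y * f y)) := by
  have e1 : ent m f = ∑ x, m x * ∑ y, P x y * (f y * Real.log (f y)) := by
    unfold ent
    simp_rw [mul_sum]
    rw [sum_comm]
    refine sum_congr rfl fun y _ => ?_
    rw [← h.colsum y, sum_mul]
    exact sum_congr rfl fun x _ => by ring
  rw [e1]
  unfold dir ent
  rw [← sum_sub_distrib, mul_sum]
  refine sum_le_sum fun x _ => ?_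
  have := mul_le_mul_of_nonneg_left (h.row_drop f hf x) (h.mpos x).le
  rw [mul_sum] at this
  simp_rw [mul_assoc]
  linarith

omit [DecidableEq X] in
lemma ent_lower (m f : X → ℝ) (hm : ∀ x, 0 ≤ m x) (hM : 0 < ∑ x, m x) (hf : ∀ x, 0 ≤ f x)
    (h1 : ∑ x, m x * f x = 1) : -Real.log (∑ x, m x) ≤ ent m f := by
  obtain ⟨M, hMd⟩ : ∃ M, M = ∑ x, m x := ⟨_, rfl⟩
  rw [← hMd] at hM ⊢
  have hterm : ∀ x, m x * f x * (-Real.log M) + m x * f x - m x * M⁻¹ ≤
      m x * (f x * Real.log (f x)) := by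
    intro x
    have h2 := (sq_nonneg _).trans (ent_pt (f x) M⁻¹ (hf x) (inv_pos.mpr hM))
    rw [Real.log_inv] at h2
    have := mul_nonneg (hm x) h2
    linarith
  refine le_trans (le_of_eq ?_) (sum_le_sum fun x _ => hterm x)
  rw [sum_sub_distrib, sum_add_distrib, ← sum_mul, ← sum_mul, h1, ← hMd]
  field_simp
  ring

/-- the heat kernel -/
noncomputable def hk (m : X → ℝ) (P : Matrix X X ℝ) (k : ℕ) (x z : X) : ℝ := (P ^ k) x z / m z

lemma Chain.pow_nonneg (h : Chain m P) (k : ℕ) (x y : X) : 0 ≤ (P ^ k) x y := by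
  induction k generalizing x y with
  | zero => simp only [pow_zero, Matrix.one_apply]; split_ifs <;> norm_num
  | succ k ih =>
    rw [pow_succ, Matrix.mul_apply]
    exact sum_nonneg fun z _ => mul_nonneg (ih x z) (h.nonneg z y)

lemma Chain.pow_rowsum (h : Chain m P) (k : ℕ) (x : X) : ∑ y, (P ^ k) x y = 1 := by
  induction k generalizing x with
  | zero => simp [Matrix.one_apply]
  | succ k ih =>
    simp_rw [pow_succ, Matrix.mul_apply]
    rw [sum_comm]
    simp_rw [← mul_sum, h.rowsum, mul_one]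
    exact ih x

lemma Chain.pow_rev (h : Chain m P) (k : ℕ) (x y : X) :
    m x * (P ^ k) x y = m y * (P ^ k) y x := by
  induction k generalizing x y with
  | zero =>
    simp only [pow_zero, Matrix.one_apply]
    by_cases hxy : x = y
    · subst hxy; rfl
    · simp [hxy, Ne.symm hxy]
  | succ k ih =>
    conv_lhs => rw [pow_succ]
    conv_rhs => rw [pow_succ']
    rw [Matrix.mul_apply, Matrix.mul_apply, mul_sum, mul_sum]
    refine sum_congr rfl fun z _ => ?_
    calc m x * ((P ^ k) x z * P z y) = (m x * (P ^ k) x z) * P z y := by ring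
      _ = (m z * P z y) * (P ^ k) z x := by rw [ih]; ring
      _ = _ := by rw [h.rev]; ring

lemma Chain.hk_nonneg (h : Chain m P) (k : ℕ) (x z : X) : 0 ≤ hk m P k x z :=
  div_nonneg (h.pow_nonneg k x z) (h.mpos z).le

lemma Chain.hk_symm (h : Chain m P) (k : ℕ) (x z : X) : hk m P k x z = hk m P k z x := by
  unfold hk
  rw [div_eq_div_iff (h.mpos z).ne' (h.mpos x).ne']
  have := h.pow_rev k x z
  linarith

lemma Chain.hk_mass (h : Chain m P) (k : ℕ) (z : X) : ∑ x, m x * hk m P k x z = 1 := by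
  rw [← h.pow_rowsum k z]
  refine sum_congr rfl fun x _ => ?_
  rw [h.hk_symm]
  unfold hk
  have := (h.mpos x).ne'
  field_simp

lemma hk_succ (k : ℕ) (x z : X) : hk m P (k + 1) x z = ∑ y, P x y * hk m P k y z := by
  unfold hk
  rw [pow_succ', Matrix.mul_apply, sum_div]
  exact sum_congr rfl fun y _ => by ring

lemma Chain.hk_add (h : Chain m P) (i j : ℕ) (x y : X) :
    hk m P (i + j) x y = ∑ z, m z * (hk m P i x z * hk m P j y z) := by
  conv_lhs => unfold hk
  rw [pow_add, Matrix.mul_apply, sum_div]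
  refine sum_congr rfl fun z _ => ?_
  rw [h.hk_symm j y z]
  unfold hk
  have := (h.mpos z).ne'
  field_simp

lemma Chain.ent_zero (h : Chain m P) (z : X) :
    ent m (fun x => hk m P 0 x z) = -Real.log (m z) := by
  unfold ent hk
  rw [sum_eq_single z]
  · have := (h.mpos z).ne'
    simp only [pow_zero, Matrix.one_apply_eq, one_div, Real.log_inv]
    field_simp
  · intro x _ hx
    simp [hx]
  · simp

lemma Chain.dir_sum (h : Chain m P) (K : ℕ) (z : X) :
    ∑ k ∈ range K, dir m P (fun x => hk m P k x z) ≤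
      6 * (Real.log (∑ x, m x) - Real.log (m z)) := by
  have hM : 0 < ∑ x, m x := sum_pos (fun x _ => h.mpos x) ⟨z, mem_univ z⟩
  have h1 : ∑ k ∈ range K, dir m P (fun x => hk m P k x z) ≤
      6 * (ent m (fun x => hk m P 0 x z) - ent m (fun x => hk m P K x z)) := by
    induction K with
    | zero => simp
    | succ K ih =>
      rw [sum_range_succ]
      have := h.ent_drop (fun x => hk m P K x z) (fun x => h.hk_nonneg K x z)
      simp_rw [← hk_succ] at this
      linarith
  have h2 := ent_lower m (fun x => hk m P K x z) (fun x => (h.mpos x).le) hM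
    (fun x => h.hk_nonneg K x z) (h.hk_mass K z)
  rw [h.ent_zero] at h1
  linarith

lemma Chain.dir_total (h : Chain m P) (K : ℕ) :
    ∑ k ∈ range K, ∑ z, m z * dir m P (fun x => hk m P k x z) ≤
      6 * (∑ x, m x) * Real.log (Fintype.card X) := by
  rcases isEmpty_or_nonempty X with hX | hX
  · simp
  obtain ⟨M, hMd⟩ : ∃ M, M = ∑ x, m x := ⟨_, rfl⟩
  have hM : 0 < M := hMd ▸ sum_pos (fun x _ => h.mpos x) univ_nonempty
  obtain ⟨n, hn⟩ : ∃ n : ℝ, n = Fintype.card X := ⟨_, rfl⟩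
  have hn0 : 0 < n := by rw [hn]; exact_mod_cast Fintype.card_pos
  rw [sum_comm, ← hMd, ← hn]
  have hterm : ∀ z, ∑ k ∈ range K, m z * dir m P (fun x => hk m P k x z) ≤
      6 * (m z * Real.log n + M / n - m z) := by
    intro z
    rw [← mul_sum]
    have h1 := h.dir_sum K z
    rw [← hMd] at h1
    have hz := h.mpos z
    have h2 := Real.log_le_sub_one_of_pos (div_pos hM (mul_pos hn0 hz))
    rw [Real.log_div hM.ne' (mul_pos hn0 hz).ne', Real.log_mul hn0.ne' hz.ne'] at h2
    have h3 := mul_le_mul_of_nonneg_left h2 hz.le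
    have h4 : m z * (M / (n * m z) - 1) = M / n - m z := by field_simp
    have h5 := mul_le_mul_of_nonneg_left h1 hz.le
    nlinarith
  refine (sum_le_sum fun z _ => hterm z).trans (le_of_eq ?_)
  rw [← mul_sum, sum_sub_distrib, sum_add_distrib, ← sum_mul, ← hMd, sum_const, card_univ,
    nsmul_eq_mul, ← hn]
  field_simp
  ring

end Crest.Agent.R232
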