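import Mathlib

set_option autoImplicit false

namespace Crest.Agent.R232.Iso

open MeasureTheory
open scoped ENNReal

/-- Sum of `q`-th powers of absolute values. -/
noncomputable def S {ι : Type*} [Fintype ι] (q : ℝ) (f : ι → ℝ) : ℝ := ∑ i, |f i| ^ q

lemma mid_lt {q : ℝ} (hq : 1 < q) {s t : ℝ} (h : t ≠ -s) :
    |s - t| ^ q < 2 ^ (q - 1) * (|s| ^ q + |t| ^ q) := by
  have h2 : (0:ℝ) < 2 ^ (q - 1) := by positivity
  by_cases hab : |s| = |t|
  · have hts : t = s := by
      rcases abs_eq_abs.mp hab with h' | h'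
      · exact h'.symm
      · exact absurd (by rw [h']; ring) h
    have hs : s ≠ 0 := by
      intro h0; apply h; rw [hts, h0]; simp
    have : 0 < |s| ^ q := Real.rpow_pos_of_pos (abs_pos.mpr hs) _
    rw [hts, sub_self, abs_zero, Real.zero_rpow (by linarith)]
    positivity
  · have hc := (strictConvexOn_rpow hq).2 (abs_nonneg s) (abs_nonneg t) hab
      (show (0:ℝ) < 1/2 by norm_num) (show (0:ℝ) < 1/2 by norm_num) (by norm_num)
    simp only [smul_eq_mul] at hc
    have h1 : |s - t| ≤ 2 * (1/2 * |s| + 1/2 * |t|) := by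
      have := abs_sub s t
      linarith
    have h3 : |s - t| ^ q ≤ (2 * (1/2 * |s| + 1/2 * |t|)) ^ q :=
      Real.rpow_le_rpow (abs_nonneg _) h1 (by linarith)
    rw [Real.mul_rpow (by norm_num) (by positivity)] at h3
    have h4 : (2:ℝ) ^ q = 2 ^ (q - 1) * 2 := by
      rw [Real.rpow_sub_one (by norm_num)]; ring
    rw [h4] at h3
    nlinarith

lemma mid_eq {q : ℝ} (hq : 1 < q) (s : ℝ) :
    |s - -s| ^ q = 2 ^ (q - 1) * (|s| ^ q + |-s| ^ q) := by
  have h4 : (2:ℝ) ^ q = 2 ^ (q - 1) * 2 := by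
    rw [Real.rpow_sub_one (by norm_num)]; ring
  have : s - -s = 2 * s := by ring
  rw [this, abs_mul, abs_neg, Real.mul_rpow (abs_nonneg _) (abs_nonneg _), abs_two, h4]
  ring

lemma abs_rpow_eq (q x : ℝ) : |x| ^ q = (x ^ 2) ^ (q / 2) := by
  rw [← sq_abs, ← Real.rpow_natCast, ← Real.rpow_mul (abs_nonneg _)]
  congr 1
  push_cast; ring

lemma super_lt {r u v : ℝ} (hr : 1 < r) (hu : 0 < u) (hv : 0 < v) :
    u ^ r + v ^ r < (u + v) ^ r := by
  have e : ∀ w : ℝ, 0 < w → w ^ r = w ^ (r - 1) * w := fun w hw => by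
    rw [Real.rpow_sub_one hw.ne']; field_simp
  rw [e u hu, e v hv, e (u + v) (by linarith)]
  have h1 : u ^ (r - 1) < (u + v) ^ (r - 1) := Real.rpow_lt_rpow hu.le (by linarith) (by linarith)
  have h2 : v ^ (r - 1) < (u + v) ^ (r - 1) := Real.rpow_lt_rpow hv.le (by linarith) (by linarith)
  nlinarith

lemma sub_lt {r u v : ℝ} (hr : r < 1) (hu : 0 < u) (hv : 0 < v) :
    (u + v) ^ r < u ^ r + v ^ r := by
  have e : ∀ w : ℝ, 0 < w → w ^ r = w ^ (r - 1) * w := fun w hw => by
    rw [Real.rpow_sub_one hw.ne']; field_simp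
  rw [e u hu, e v hv, e (u + v) (by linarith)]
  have h1 : (u + v) ^ (r - 1) < u ^ (r - 1) :=
    Real.rpow_lt_rpow_of_neg hu (by linarith) (by linarith)
  have h2 : (u + v) ^ (r - 1) < v ^ (r - 1) :=
    Real.rpow_lt_rpow_of_neg hv (by linarith) (by linarith)
  nlinarith

/-- Clarkson defect. -/
noncomputable def cl (q s t : ℝ) : ℝ := |s + t| ^ q + |s - t| ^ q - 2 * (|s| ^ q + |t| ^ q)

lemma cl_zero {q : ℝ} (hq : 1 < q) {s t : ℝ} (h : s * t = 0) : cl q s t = 0 := by
  have h0 : (0:ℝ) ^ q = 0 := Real.zero_rpow (by linarith)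
  rcases mul_eq_zero.mp h with rfl | rfl
  · simp [cl, h0]; ring
  · simp [cl, h0]; ring

lemma cl_pos {q : ℝ} (hq : 2 < q) {s t : ℝ} (h : s * t ≠ 0) : 0 < cl q s t := by
  have hs : 0 < s ^ 2 := by have := left_ne_zero_of_mul h; positivity
  have ht : 0 < t ^ 2 := by have := right_ne_zero_of_mul h; positivity
  have hc := (convexOn_rpow (p := q / 2) (by linarith)).2 (sq_nonneg (s + t)) (sq_nonneg (s - t))
      (show (0:ℝ) ≤ 1/2 by norm_num) (show (0:ℝ) ≤ 1/2 by norm_num) (by norm_num)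
  simp only [smul_eq_mul] at hc
  have e : 1/2 * (s + t) ^ 2 + 1/2 * (s - t) ^ 2 = s ^ 2 + t ^ 2 := by ring
  rw [e] at hc
  have := super_lt (r := q / 2) (by linarith) hs ht
  simp only [cl, abs_rpow_eq q]
  linarith

lemma cl_neg {q : ℝ} (hq1 : 1 < q) (hq : q < 2) {s t : ℝ} (h : s * t ≠ 0) : cl q s t < 0 := by
  have hs : 0 < s ^ 2 := by have := left_ne_zero_of_mul h; positivity
  have ht : 0 < t ^ 2 := by have := right_ne_zero_of_mul h; positivity
  have hc := (Real.concaveOn_rpow (p := q / 2) (by linarith) (by linarith)).2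
      (sq_nonneg (s + t)) (sq_nonneg (s - t))
      (show (0:ℝ) ≤ 1/2 by norm_num) (show (0:ℝ) ≤ 1/2 by norm_num) (by norm_num)
  simp only [smul_eq_mul] at hc
  have e : 1/2 * (s + t) ^ 2 + 1/2 * (s - t) ^ 2 = s ^ 2 + t ^ 2 := by ring
  rw [e] at hc
  have := sub_lt (r := q / 2) (by linarith) hs ht
  simp only [cl, abs_rpow_eq q]
  linarith

lemma sum_cl {ι : Type*} [Fintype ι] (q : ℝ) (f g : ι → ℝ) :
    ∑ i, cl q (f i) (g i) = S q (f + g) + S q (f - g) - 2 * (S q f + S q g) := by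
  simp only [cl, S, Pi.add_apply, Pi.sub_apply, Finset.sum_sub_distrib, Finset.sum_add_distrib,
    ← Finset.mul_sum]

lemma disj_of_sum_cl {ι : Type*} [Fintype ι] {q : ℝ} (hq1 : 1 < q) (hq2 : q ≠ 2) (f g : ι → ℝ)
    (h : ∑ i, cl q (f i) (g i) = 0) (i : ι) : f i * g i = 0 := by
  by_contra hi
  rcases lt_or_gt_of_ne hq2 with hq | hq
  · have : ∑ j, cl q (f j) (g j) < ∑ _j : ι, (0:ℝ) := by
      apply Finset.sum_lt_sum
      · intro j _
        by_cases hj : f j * g j = 0
        · exact (cl_zero hq1 hj).le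
        · exact (cl_neg hq1 hq hj).le
      · exact ⟨i, Finset.mem_univ _, cl_neg hq1 hq hi⟩
    simp [h] at this
  · have : ∑ _j : ι, (0:ℝ) < ∑ j, cl q (f j) (g j) := by
      apply Finset.sum_lt_sum
      · intro j _
        by_cases hj : f j * g j = 0
        · exact (cl_zero hq1 hj).ge
        · exact (cl_pos hq hj).le
      · exact ⟨i, Finset.mem_univ _, cl_pos hq hi⟩
    simp [h] at this

lemma neg_of_mid {ι : Type*} [Fintype ι] {q : ℝ} (hq1 : 1 < q) (f g : ι → ℝ)
    (h : S q (f - g) = 2 ^ (q - 1) * (S q f + S q g)) : g = -f := by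
  by_contra hne
  obtain ⟨i, hi⟩ : ∃ i, g i ≠ -f i := by
    by_contra h'
    push Not at h'
    exact hne (funext h')
  have : ∑ j, |f j - g j| ^ q < ∑ j, 2 ^ (q - 1) * (|f j| ^ q + |g j| ^ q) := by
    apply Finset.sum_lt_sum
    · intro j _
      by_cases hj : g j = -f j
      · rw [hj]; exact (mid_eq hq1 _).le
      · exact (mid_lt hq1 hj).le
    · exact ⟨i, Finset.mem_univ _, mid_lt hq1 hi⟩
  rw [← Finset.mul_sum, Finset.sum_add_distrib] at this
  simp only [S, Pi.sub_apply] at h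
  linarith

lemma S_neg {ι : Type*} [Fintype ι] (q : ℝ) (f : ι → ℝ) : S q (-f) = S q f := by
  simp [S]

lemma S_mid {ι : Type*} [Fintype ι] {q : ℝ} (hq1 : 1 < q) (f : ι → ℝ) :
    S q (f - -f) = 2 ^ (q - 1) * (S q f + S q (-f)) := by
  simp only [S, Pi.sub_apply, Pi.neg_apply, mid_eq hq1, ← Finset.mul_sum, Finset.sum_add_distrib]

/-- The signed configuration built from a family of vectors. -/
def cfg {κ α : Type*} (v : κ → α → ℝ) : Option (Bool × κ) → α → ℝ
  | none => 0
  | some (true, k) => v k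
  | some (false, k) => -v k

theorem rigid {κ α δ : Type*} [Fintype α] [Fintype δ] {q : ℝ} (hq1 : 1 < q) (hq2 : q ≠ 2)
    (v : κ → α → ℝ) (Y : Option (Bool × κ) → δ → ℝ) (σ : ℝ) (hσ : 0 < σ)
    (hY : ∀ a b, S q (Y a - Y b) = σ * S q (cfg v a - cfg v b)) :
    ∃ A : κ → δ → ℝ, (∀ k l, (∀ z, v k z * v l z = 0) → ∀ z, A k z * A l z = 0) ∧
      (∀ k l, S q (v k + v l) ≠ S q (v k - v l) → ∃ z, A k z * A l z ≠ 0) := by
  set A : κ → δ → ℝ := fun k => Y (some (true, k)) - Y none with hA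
  have h1 : ∀ k, S q (A k) = σ * S q (v k) := fun k => by
    simpa [cfg] using hY (some (true, k)) none
  have h2 : ∀ k, Y (some (false, k)) - Y none = -A k := fun k => by
    apply neg_of_mid hq1
    have e1 : A k - (Y (some (false, k)) - Y none) = Y (some (true, k)) - Y (some (false, k)) := by
      simp [hA]
    have e2 := hY (some (false, k)) none
    rw [e1, hY, e2, h1]
    simp only [cfg, sub_zero]
    rw [S_mid hq1]; ring
  have h3 : ∀ k l, S q (A k - A l) = σ * S q (v k - v l) := fun k l => by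
    have e1 : A k - A l = Y (some (true, k)) - Y (some (true, l)) := by simp [hA]
    rw [e1, hY]; simp [cfg]
  have h4 : ∀ k l, S q (A k + A l) = σ * S q (v k + v l) := fun k l => by
    have e1 : A k + A l = Y (some (true, k)) - Y (some (false, l)) := by
      have := h2 l
      rw [← neg_neg (A l), ← this]; simp only [hA]; abel
    rw [e1, hY]; simp [cfg]
  refine ⟨A, fun k l hkl => ?_, fun k l hkl => ?_⟩
  · apply disj_of_sum_cl hq1 hq2
    have e0 : ∑ i, cl q (v k i) (v l i) = 0 :=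
      Finset.sum_eq_zero fun i _ => cl_zero hq1 (hkl i)
    rw [sum_cl] at e0 ⊢
    rw [h1, h1, h3, h4]
    linear_combination σ * e0
  · by_contra h'
    push Not at h'
    apply hkl
    have : S q (A k + A l) = S q (A k - A l) := by
      simp only [S, Pi.add_apply, Pi.sub_apply]
      refine Finset.sum_congr rfl fun z _ => ?_
      rcases mul_eq_zero.mp (h' z) with h | h <;> simp [h]
    rw [h3, h4] at this
    exact mul_left_cancel₀ hσ.ne' this

/-- Row and column indicators. -/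
def rc (m : ℕ) : Fin m ⊕ Fin m → Fin m × Fin m → ℝ
  | Sum.inl i => fun z => if z.1 = i then 1 else 0
  | Sum.inr j => fun z => if z.2 = j then 1 else 0

theorem count_bound {m : ℕ} {δ : Type*} [Fintype δ] {q : ℝ} (hq1 : 1 < q) (hq2 : q ≠ 2)
    (Y : Option (Bool × (Fin m ⊕ Fin m)) → δ → ℝ) (σ : ℝ) (hσ : 0 < σ)
    (hY : ∀ a b, S q (Y a - Y b) = σ * S q (cfg (rc m) a - cfg (rc m) b)) :
    m ^ 2 ≤ Fintype.card δ := by
  obtain ⟨A, hA1, hA2⟩ := rigid hq1 hq2 (rc m) Y σ hσ hY
  have hne : ∀ i j : Fin m, S q (rc m (Sum.inl i) + rc m (Sum.inr j)) ≠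
      S q (rc m (Sum.inl i) - rc m (Sum.inr j)) := by
    intro i j
    apply ne_of_gt
    simp only [S, Pi.add_apply, Pi.sub_apply, rc]
    apply Finset.sum_lt_sum
    · intro z _
      apply Real.rpow_le_rpow (abs_nonneg _) _ (by linarith)
      split_ifs <;> norm_num
    · refine ⟨(i, j), Finset.mem_univ _, ?_⟩
      apply Real.rpow_lt_rpow (abs_nonneg _) _ (by linarith)
      norm_num
  choose c hc using fun ij : Fin m × Fin m => hA2 _ _ (hne ij.1 ij.2)
  have hinj : Function.Injective c := by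
    rintro ⟨i, j⟩ ⟨i', j'⟩ h
    have a1 := hc (i, j)
    have a2 := hc (i', j')
    rw [← h] at a2
    have hi : i = i' := by
      by_contra hi
      have := hA1 (Sum.inl i) (Sum.inl i') (fun z => by
        simp only [rc]; split_ifs with h1 h2
        · exact absurd (h1.symm.trans h2) hi
        all_goals simp) (c (i, j))
      rcases mul_eq_zero.mp this with h0 | h0
      · exact left_ne_zero_of_mul a1 h0
      · exact left_ne_zero_of_mul a2 h0
    have hj : j = j' := by
      by_contra hj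
      have := hA1 (Sum.inr j) (Sum.inr j') (fun z => by
        simp only [rc]; split_ifs with h1 h2
        · exact absurd (h1.symm.trans h2) hj
        all_goals simp) (c (i, j))
      rcases mul_eq_zero.mp this with h0 | h0
      · exact right_ne_zero_of_mul a1 h0
      · exact right_ne_zero_of_mul a2 h0
    rw [hi, hj]
  have := Fintype.card_le_of_injective c hinj
  simpa [sq] using this

lemma norm_toLp_count {α : Type} [Fintype α] [MeasurableSpace α] [DiscreteMeasurableSpace α]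
    (p : ℝ≥0∞) [Fact (1 ≤ p)] (hp1 : 1 < p) (hptop : p ≠ ⊤) (f : α → ℝ) :
    ‖(MemLp.of_discrete (f := f) (p := p) (μ := Measure.count)).toLp f‖ ^ p.toReal
      = S p.toReal f := by
  have hp0 : p ≠ 0 := by rintro rfl; simp at hp1
  have hq : 0 < p.toReal := ENNReal.toReal_pos hp0 hptop
  rw [Lp.norm_toLp, MemLp.eLpNorm_eq_integral_rpow_norm hp0 hptop MemLp.of_discrete,
    integral_count, ENNReal.toReal_ofReal (by positivity), ← Real.rpow_mul (by positivity),
    inv_mul_cancel₀ hq.ne', Real.rpow_one]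
  simp [S]

lemma norm_piLp {δ : Type*} [Fintype δ] (p : ℝ≥0∞) [Fact (1 ≤ p)] (hp1 : 1 < p) (hptop : p ≠ ⊤)
    (y : PiLp p (fun _ : δ => ℝ)) : ‖y‖ ^ p.toReal = S p.toReal y.ofLp := by
  have hp0 : p ≠ 0 := by rintro rfl; simp at hp1
  have hq : 0 < p.toReal := ENNReal.toReal_pos hp0 hptop
  rw [PiLp.norm_eq_sum hq, ← Real.rpow_mul (by positivity), one_div,
    inv_mul_cancel₀ hq.ne', Real.rpow_one]
  simp [S]

theorem main
    (p : ℝ≥0∞) [Fact (1 ≤ p)] (hp1 : 1 < p) (hptop : p ≠ ⊤) (hp2 : p ≠ 2)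
    (n : ℕ) (hn : 9 ≤ n) (d : ℕ)
    (hd : ∀ (α : Type) [MeasurableSpace α] (μ : Measure α) (x : Fin n → Lp ℝ p μ),
      Function.Injective x →
      ∃ (y : Fin n → PiLp p (fun _ : Fin d => ℝ)) (s : ℝ), 0 < s ∧
        ∀ i j, ‖y i - y j‖ = s * ‖x i - x j‖) :
    ((n - 1) / 4) ^ 2 ≤ d := by
  classical
  set m := (n - 1) / 4 with hm
  have hm2 : 2 ≤ m := by omega
  have hq1 : 1 < p.toReal := by
    have := (ENNReal.toReal_lt_toReal (by simp) hptop).mpr hp1
    simpa using this
  have hq2 : p.toReal ≠ 2 := by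
    intro h; apply hp2
    rw [← ENNReal.ofReal_toReal hptop, h]; simp
  letI : MeasurableSpace (Fin m × Fin m) := ⊤
  haveI : DiscreteMeasurableSpace (Fin m × Fin m) := ⟨fun _ => trivial⟩
  let T : (Fin m × Fin m → ℝ) → Lp ℝ p (Measure.count : Measure (Fin m × Fin m)) :=
    fun f => (MemLp.of_discrete (f := f) (p := p) (μ := Measure.count)).toLp f
  have hT : ∀ f, ‖T f‖ ^ p.toReal = S p.toReal f := fun f => norm_toLp_count p hp1 hptop f
  have hTsub : ∀ f g, T (f - g) = T f - T g := fun f g => MemLp.toLp_sub _ _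
  have hT1 : T (fun _ => 1) ≠ 0 := by
    intro h
    have := hT (fun _ => 1)
    rw [h, norm_zero, Real.zero_rpow (by linarith)] at this
    simp only [S, abs_one, Real.one_rpow, Finset.sum_const, Finset.card_univ, Fintype.card_prod,
      Fintype.card_fin, nsmul_eq_mul, mul_one] at this
    have h3 : (0:ℝ) < ((m * m : ℕ) : ℝ) := by
      have : 0 < m * m := by positivity
      exact_mod_cast this
    linarith
  haveI : Infinite (Lp ℝ p (Measure.count : Measure (Fin m × Fin m))) :=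
    Infinite.of_injective (fun t : ℝ => t • T (fun _ => 1)) (smul_left_injective ℝ hT1)
  let U : Finset (Lp ℝ p (Measure.count : Measure (Fin m × Fin m))) :=
    Finset.univ.image fun a => T (cfg (rc m) a)
  have hU : U.card ≤ n := by
    refine Finset.card_image_le.trans ?_
    simp only [Finset.card_univ, Fintype.card_option, Fintype.card_prod, Fintype.card_bool,
      Fintype.card_sum, Fintype.card_fin]
    omega
  obtain ⟨V, hUV, hV⟩ := Infinite.exists_superset_card_eq U n hU
  let e : V ≃ Fin n := V.equivFinOfCardEq hV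
  obtain ⟨y, s, hs, hy⟩ := hd (Fin m × Fin m) Measure.count (fun i => (e.symm i).1)
    (Subtype.val_injective.comp e.symm.injective)
  have hmem : ∀ a, T (cfg (rc m) a) ∈ V := fun a =>
    hUV (Finset.mem_image.mpr ⟨a, Finset.mem_univ _, rfl⟩)
  have := count_bound (m := m) (δ := Fin d) hq1 hq2
    (fun a => (y (e ⟨_, hmem a⟩)).ofLp) (s ^ p.toReal) (by positivity) (fun a b => by
      have h1 := hy (e ⟨_, hmem a⟩) (e ⟨_, hmem b⟩)
      simp only [Equiv.symm_apply_apply] at h1
      rw [← hT, hTsub, ← Real.mul_rpow hs.le (norm_nonneg _), ← h1, norm_piLp p hp1 hptop]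
      simp)
  simpa using this

end Crest.Agent.R232.Iso
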