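import Crest.Agent.R232.Local

/-! The `π`-orthogonal projection onto gradients, packaged as a kernel. -/

set_option autoImplicit false

namespace Crest.Agent.R232
open Finset

variable {X : Type*} [Fintype X] [DecidableEq X]

omit [DecidableEq X] in
lemma exists_pot (π : X × X → ℝ) (hπ : ∀ e, 0 < π e) (t : X × X → ℝ) (a : X × X → ℝ) :
    ∃ g : X → ℝ, ∀ h : X → ℝ,
      ∑ e, π e * ((g e.1 - g e.2) / t e - a e) * ((h e.1 - h e.2) / t e) = 0 := by
  let T : (X → ℝ) →ₗ[ℝ] EuclideanSpace ℝ (X × X) :=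
    { toFun := fun h => WithLp.toLp 2 fun e => √(π e) * ((h e.1 - h e.2) / t e)
      map_add' := fun h h' => by
        ext e; simp only [Pi.add_apply, PiLp.add_apply]; ring
      map_smul' := fun r h => by
        ext e; simp only [Pi.smul_apply, PiLp.smul_apply, smul_eq_mul, RingHom.id_apply]; ring }
  obtain ⟨y, ⟨g, rfl⟩, z, hz, hv⟩ := (LinearMap.range T).exists_add_mem_mem_orthogonal
    (WithLp.toLp 2 fun e => √(π e) * a e)
  refine ⟨g, fun h => ?_⟩
  have h1 := (Submodule.mem_orthogonal _ _).mp hz (T h) ⟨h, rfl⟩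
  have h2 : ∀ e, z e = √(π e) * a e - √(π e) * ((g e.1 - g e.2) / t e) := by
    intro e
    have := congrArg (fun v : EuclideanSpace ℝ (X × X) => v e) hv
    simp only [PiLp.add_apply, T, LinearMap.coe_mk, AddHom.coe_mk] at this
    linarith
  rw [PiLp.inner_apply] at h1
  rw [← neg_eq_zero, ← sum_neg_distrib, ← h1]
  refine sum_congr rfl fun e _ => ?_
  rw [h2]
  simp only [T, LinearMap.coe_mk, AddHom.coe_mk, RCLike.inner_apply, conj_trivial]
  have h3 : √(π e) * √(π e) = π e := Real.mul_self_sqrt (hπ e).le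
  linear_combination (-(((g e.1 - g e.2) / t e - a e) * ((h e.1 - h e.2) / t e))) * h3.symm

theorem exists_proj (π : X × X → ℝ) (hπ : ∀ e, 0 < π e) (hπ1 : ∑ e, π e = 1)
    (t : X × X → ℝ) (ht : ∀ e, 0 < t e) :
    ∃ g : X × X → X → ℝ,
      (∀ h : X → ℝ, ∀ e, ∑ f, ((if e = f then 1 else 0) - (g f e.1 - g f e.2) / t e) *
        ((h f.1 - h f.2) / t f) = 0) ∧
      (∀ a : X × X → ℝ, ∑ e, π e *
        (∑ f, ((if e = f then 1 else 0) - (g f e.1 - g f e.2) / t e) * a f) ^ 2 ≤
          ∑ e, π e * a e ^ 2) ∧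
      ∑ e, π e * ∑ f, |(g f e.1 - g f e.2) / t e| ≤ 24 * Real.log (Fintype.card X) := by
  choose g hg using fun f : X × X => exists_pot π hπ t (fun e => if e = f then 1 else 0)
  have hb : ∀ (a : X × X → ℝ) e,
      ∑ f, ((if e = f then 1 else 0) - (g f e.1 - g f e.2) / t e) * a f =
        a e - ((∑ f, a f * g f e.1) - ∑ f, a f * g f e.2) / t e := by
    intro a e
    simp_rw [sub_mul, sum_sub_distrib, ite_mul, one_mul, zero_mul]
    rw [sum_ite_eq, if_pos (mem_univ _), ← sum_sub_distrib, sum_div]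
    congr 1
    exact sum_congr rfl fun f _ => by ring
  have horth : ∀ (a : X × X → ℝ) (h : X → ℝ), ∑ e, π e *
      (∑ f, ((if e = f then 1 else 0) - (g f e.1 - g f e.2) / t e) * a f) *
        ((h e.1 - h e.2) / t e) = 0 := by
    intro a h
    simp_rw [mul_sum, sum_mul]
    rw [sum_comm]
    refine sum_eq_zero fun f _ => ?_
    have := congrArg (fun r => -(a f) * r) (hg f h)
    simp only [mul_zero] at this
    rw [mul_sum] at this
    exact (sum_congr rfl fun e _ => by ring).trans this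
  refine ⟨g, fun h e => ?_, fun a => ?_, localization π hπ hπ1 t ht g hg⟩
  · obtain ⟨a, ha⟩ : ∃ a : X × X → ℝ, a = fun f => (h f.1 - h f.2) / t f := ⟨_, rfl⟩
    have h1 := horth a (fun x => h x - ∑ f, a f * g f x)
    have h2 : ∀ e : X × X, π e *
        (∑ f, ((if e = f then 1 else 0) - (g f e.1 - g f e.2) / t e) * a f) *
        (((h e.1 - ∑ f, a f * g f e.1) - (h e.2 - ∑ f, a f * g f e.2)) / t e) =
        π e * (∑ f, ((if e = f then 1 else 0) - (g f e.1 - g f e.2) / t e) * a f) ^ 2 := by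
      intro e
      rw [hb]
      have : a e = (h e.1 - h e.2) / t e := by rw [ha]
      rw [this]
      ring
    simp_rw [h2] at h1
    have h3 := (sum_eq_zero_iff_of_nonneg
      (fun e _ => mul_nonneg (hπ e).le (sq_nonneg _))).mp h1 e (mem_univ _)
    have h4 := (mul_eq_zero.mp h3).resolve_left (hπ e).ne'
    have h5 := pow_eq_zero_iff (two_ne_zero) |>.mp h4
    rw [ha] at h5
    exact h5
  · have h1 := horth a (fun x => ∑ f, a f * g f x)
    have h2 : ∀ e : X × X, π e *
        (∑ f, ((if e = f then 1 else 0) - (g f e.1 - g f e.2) / t e) * a f) ^ 2 ≤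
        π e * a e ^ 2 - 2 * (π e *
          (∑ f, ((if e = f then 1 else 0) - (g f e.1 - g f e.2) / t e) * a f) *
          (((∑ f, a f * g f e.1) - ∑ f, a f * g f e.2) / t e)) := by
      intro e
      rw [hb]
      obtain ⟨G, hG⟩ : ∃ G, G = ((∑ f, a f * g f e.1) - ∑ f, a f * g f e.2) / t e := ⟨_, rfl⟩
      rw [← hG]
      have := mul_nonneg (hπ e).le (sq_nonneg G)
      nlinarith
    refine (sum_le_sum fun e _ => h2 e).trans ?_
    rw [sum_sub_distrib, ← mul_sum, h1]
    simp

end Crest.Agent.R232
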