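import Crest.Agent.R232.Tools
import Crest.Agent.R232.Proj

/-! Decomposition of a gradient into level pieces which are again gradients. -/

set_option autoImplicit false

namespace Crest.Agent.R232
open Finset

lemma abs_le_level {p : ℝ} (hp : 1 < p) (u x : ℝ) (hx : 0 < x) (h : x ≤ |u| ∨ x ≤ 1) :
    |u| ≤ x ^ (1 - p) * (1 + |u| ^ p) := by
  have hu := abs_nonneg u
  rcases h with h | h
  · have hu0 : 0 < |u| := lt_of_lt_of_le hx h
    have h1 : |u| ^ (1 - p) ≤ x ^ (1 - p) := Real.rpow_le_rpow_of_nonpos hx h (by linarith)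
    have h2 : |u| = |u| ^ (1 - p) * |u| ^ p := by
      rw [← Real.rpow_add hu0]; simp
    have h3 := mul_le_mul_of_nonneg_right h1 (Real.rpow_nonneg hu p)
    have h4 : 0 ≤ x ^ (1 - p) := by positivity
    rw [mul_add]
    linarith
  · have h1 : 1 ≤ x ^ (1 - p) := Real.one_le_rpow_of_pos_of_le_one_of_nonpos hx h (by linarith)
    have h2 : |u| ≤ 1 + |u| ^ p := by
      have h3 : 0 ≤ |u| ^ p := by positivity
      rcases le_total |u| 1 with h4 | h4
      · linarith
      · have := Real.rpow_le_rpow_of_exponent_le h4 hp.le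
        rw [Real.rpow_one] at this
        linarith
    have := mul_le_mul_of_nonneg_right h1 (hu.trans h2)
    linarith

theorem levels (p : ℝ) (hp : 1 < p) (hp2 : p ≠ 2) : ∃ C : ℝ, 0 < C ∧
    ∀ (X Ω : Type) [Fintype X] [DecidableEq X] [Nonempty X] [Fintype Ω] (μ : Ω → ℝ),
    (∀ ω, 0 ≤ μ ω) → ∑ ω, μ ω = 1 → ∀ (t : X × X → ℝ), (∀ e, 0 < t e) →
    ∀ (F : X → Ω → ℝ) (S L : ℕ), 1 ≤ L →
    (∀ (e : X × X) ω, |(F e.1 ω - F e.2 ω) / t e| < 2 ^ (S + 1)) →
    (∀ e : X × X, ∑ ω, μ ω * |(F e.1 ω - F e.2 ω) / t e| ^ p ≤ 2) →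
    ∀ A : ℝ, A = 1 + 24 * Real.log (Fintype.card X) →
    ∃ H : Fin (S + 4 * L) → X → Ω → ℝ, ∀ e : X × X,
      (∀ l ω, |(H l e.1 ω - H l e.2 ω) / t e| ≤ 3 * (A * 2 ^ (l : ℕ))) ∧
      (∀ l, ∑ ω, μ ω * |(H l e.1 ω - H l e.2 ω) / t e| ≤
        3 * (A * (((2 : ℝ) ^ (l : ℕ) / 2 ^ (4 * L)) ^ (1 - p) * 3))) ∧
      |wn p (fun i : Fin (S + 4 * L) × Ω => μ i.2)
          (fun i => (H i.1 e.1 i.2 - H i.1 e.2 i.2) / t e) -
        wn p μ (fun ω => (F e.1 ω - F e.2 ω) / t e)| ≤
        3 * (2 / L * (C * A ^ (if p < 2 then 2 - p else 1 - 2 / p))) := by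
  obtain ⟨C, hC, hcomm⟩ := comm_bound p hp hp2
  refine ⟨C, hC, ?_⟩
  intro X Ω _ _ _ _ μ hμ hμ1 t ht F S L hL hFS hFp A hA
  have hp0 : 0 < p := by linarith
  have hL0 : (0 : ℝ) < L := by exact_mod_cast hL
  have hlog : 0 ≤ Real.log (Fintype.card X) := Real.log_natCast_nonneg _
  have hA1 : 1 ≤ A := by rw [hA]; linarith
  have hA0 : 0 < A := by linarith
  obtain ⟨η, hη⟩ : ∃ η, η = 2 / L * (C * A ^ (if p < 2 then 2 - p else 1 - 2 / p)) := ⟨_, rfl⟩
  have hη0 : 0 < η := by rw [hη]; positivity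
  rw [← hη]
  obtain ⟨u, hu⟩ : ∃ u : X × X → Ω → ℝ, u = fun e ω => (F e.1 ω - F e.2 ω) / t e := ⟨_, rfl⟩
  have hue : ∀ e ω, u e ω = (F e.1 ω - F e.2 ω) / t e := fun e ω => by rw [hu]
  simp_rw [← hue] at hFS hFp ⊢
  obtain ⟨κ, hκ0, hκ1, hκz, hκ4, hκs, hκd⟩ := exists_tent p hp.le L hL
  choose j hj using fun e ω => exists_level (u e ω)
  have hjS : ∀ e ω, j e ω ≤ S := fun e ω => by
    by_contra h
    exact absurd ((hj e ω S).mp (not_le.mp h)) (not_le.mpr (hFS e ω))
  obtain ⟨W, hW⟩ : ∃ W : ℕ → X × X → Ω → ℝ, W = fun l e ω => κ (l - j e ω) * u e ω := ⟨_, rfl⟩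
  have hWe : ∀ l e ω, W l e ω = κ (l - j e ω) * u e ω := fun l e ω => by rw [hW]
  have hWu : ∀ l e ω, |W l e ω| ≤ |u e ω| := fun l e ω => by
    rw [hWe, abs_mul, abs_of_nonneg (hκ0 _)]
    exact mul_le_of_le_one_left (abs_nonneg _) (hκ1 _)
  have hWinf : ∀ l e ω, |W l e ω| ≤ 2 ^ l := by
    intro l e ω
    by_cases h : l ≤ j e ω
    · rw [hWe, Nat.sub_eq_zero_of_le h, hκz]; simp
    · refine (hWu l e ω).trans ?_
      have h1 : |u e ω| < 2 ^ (j e ω + 1) := by
        by_contra h2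
        exact lt_irrefl _ ((hj e ω _).mpr (not_lt.mp h2))
      exact h1.le.trans (pow_le_pow_right₀ (by norm_num) (by omega))
  obtain ⟨w, hw⟩ : ∃ w : ℕ → ℝ, w = fun l => ((2 : ℝ) ^ l / 2 ^ (4 * L)) ^ (1 - p) * 3 := ⟨_, rfl⟩
  have hwl : ∀ l, w l = ((2 : ℝ) ^ l / 2 ^ (4 * L)) ^ (1 - p) * 3 := fun l => by rw [hw]
  have hw0 : ∀ l, 0 ≤ w l := fun l => by rw [hwl]; positivity
  simp_rw [← hwl]
  have hW1 : ∀ l e, ∑ ω, μ ω * |W l e ω| ≤ w l := by
    intro l e
    rw [hwl]
    refine avg_le μ hμ _ (fun ω => 1 + |u e ω| ^ p) _ _ (by positivity) (fun ω => ?_) ?_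
    · by_cases h : 4 * L ≤ l - j e ω
      · rw [hWe, hκ4 _ h, zero_mul, abs_zero]; positivity
      · refine (hWu l e ω).trans (abs_le_level hp _ _ (by positivity) ?_)
        rcases Nat.eq_zero_or_pos (j e ω) with h0 | h0
        · right
          rw [div_le_one (by positivity)]
          exact pow_le_pow_right₀ (by norm_num) (by omega)
        · left
          have h1 := (hj e ω (j e ω - 1)).mp (by omega)
          refine le_trans ?_ h1
          rw [div_le_iff₀ (by positivity), ← pow_add]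
          exact pow_le_pow_right₀ (by norm_num) (by omega)
    · simp_rw [mul_add, mul_one]
      rw [sum_add_distrib, hμ1]
      linarith [hFp e]
  have hν : ∀ i : Fin (S + 4 * L) × Ω, 0 ≤ μ i.2 := fun i => hμ i.2
  have hWn : ∀ e, wn p (fun i : Fin (S + 4 * L) × Ω => μ i.2) (fun i => W i.1 e i.2) =
      wn p μ (u e) := by
    intro e
    unfold wn
    congr 1
    rw [Fintype.sum_prod_type_right]
    refine sum_congr rfl fun ω _ => ?_
    simp only
    rw [← mul_sum, Fin.sum_univ_eq_sum_range (fun l => |W l e ω| ^ p)]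
    congr 1
    simp_rw [hWe, abs_mul, abs_of_nonneg (hκ0 _), Real.mul_rpow (hκ0 _) (abs_nonneg _)]
    rw [← sum_mul, hκs _ _ (by have := hjS e ω; omega), one_mul]
  obtain ⟨v, ⟨-, H, hH⟩, hv⟩ := minimax {v : X × X → ℝ | (∀ e, 0 ≤ v e) ∧
      ∃ H : Fin (S + 4 * L) → X → Ω → ℝ, ∀ e : X × X,
        (∀ l ω, |(H l e.1 ω - H l e.2 ω) / t e| ≤ v e * (A * 2 ^ (l : ℕ))) ∧
        (∀ l, ∑ ω, μ ω * |(H l e.1 ω - H l e.2 ω) / t e| ≤ v e * (A * w l)) ∧
        wn p (fun i : Fin (S + 4 * L) × Ω => μ i.2)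
          (fun i => (H i.1 e.1 i.2 - H i.1 e.2 i.2) / t e - W i.1 e i.2) ≤ v e * η}
    (by
      rintro v1 ⟨h1, H1, hH1⟩ v2 ⟨h2, H2, hH2⟩ a b ha hb hab
      refine ⟨fun e => ?_, fun l x ω => a * H1 l x ω + b * H2 l x ω, fun e => ?_⟩
      · simp only [Pi.add_apply, Pi.smul_apply, smul_eq_mul]
        exact add_nonneg (mul_nonneg ha (h1 e)) (mul_nonneg hb (h2 e))
      simp only [Pi.add_apply, Pi.smul_apply, smul_eq_mul]
      have e1 : ∀ l ω, (a * H1 l e.1 ω + b * H2 l e.1 ω - (a * H1 l e.2 ω + b * H2 l e.2 ω)) / t e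
          = a * ((H1 l e.1 ω - H1 l e.2 ω) / t e) + b * ((H2 l e.1 ω - H2 l e.2 ω) / t e) := by
        intro l ω; ring
      have e2 : ∀ l ω, |a * ((H1 l e.1 ω - H1 l e.2 ω) / t e) +
          b * ((H2 l e.1 ω - H2 l e.2 ω) / t e)| ≤ a * |(H1 l e.1 ω - H1 l e.2 ω) / t e| +
          b * |(H2 l e.1 ω - H2 l e.2 ω) / t e| := by
        intro l ω
        refine (abs_add_le _ _).trans (le_of_eq ?_)
        rw [abs_mul, abs_mul, abs_of_nonneg ha, abs_of_nonneg hb]
      simp_rw [e1]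
      refine ⟨fun l ω => (e2 l ω).trans ?_, fun l => ?_, ?_⟩
      · have := mul_le_mul_of_nonneg_left ((hH1 e).1 l ω) ha
        have := mul_le_mul_of_nonneg_left ((hH2 e).1 l ω) hb
        linarith
      · have t1 := mul_le_mul_of_nonneg_left ((hH1 e).2.1 l) ha
        have t2 := mul_le_mul_of_nonneg_left ((hH2 e).2.1 l) hb
        refine (sum_le_sum fun ω _ => mul_le_mul_of_nonneg_left (e2 l ω) (hμ ω)).trans ?_
        rw [mul_sum] at t1 t2
        simp_rw [mul_add, mul_left_comm (μ _) a, mul_left_comm (μ _) b]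
        rw [sum_add_distrib]
        linarith
      · have e3 : (fun i : Fin (S + 4 * L) × Ω => a * ((H1 i.1 e.1 i.2 - H1 i.1 e.2 i.2) / t e) +
            b * ((H2 i.1 e.1 i.2 - H2 i.1 e.2 i.2) / t e) - W i.1 e i.2) =
            fun i => a * ((H1 i.1 e.1 i.2 - H1 i.1 e.2 i.2) / t e - W i.1 e i.2) +
              b * ((H2 i.1 e.1 i.2 - H2 i.1 e.2 i.2) / t e - W i.1 e i.2) := by
          ext i
          linear_combination (W i.1 e i.2) * hab
        rw [e3]
        refine (wn_add_le hp.le hν _ _).trans ?_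
        rw [wn_mul hp0 hν, wn_mul hp0 hν, abs_of_nonneg ha, abs_of_nonneg hb]
        have := mul_le_mul_of_nonneg_left ((hH1 e).2.2) ha
        have := mul_le_mul_of_nonneg_left ((hH2 e).2.2) hb
        linarith)
    (fun v hv => hv.1)
    (by
      intro π hπ hπ1
      obtain ⟨g, hg1, hg2, hg3⟩ := exists_proj π hπ hπ1 t ht
      obtain ⟨Pr, hPr⟩ : ∃ Pr : X × X → X × X → ℝ,
          Pr = fun e f => (g f e.1 - g f e.2) / t e := ⟨_, rfl⟩
      have hPre : ∀ e f, Pr e f = (g f e.1 - g f e.2) / t e := fun e f => by rw [hPr]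
      simp_rw [← hPre] at hg1 hg2 hg3
      obtain ⟨K, hK⟩ : ∃ K : X × X → X × X → ℝ,
          K = fun e f => (if e = f then 1 else 0) - Pr e f := ⟨_, rfl⟩
      have hKe : ∀ e f, K e f = (if e = f then 1 else 0) - Pr e f := fun e f => by rw [hK]
      simp_rw [← hKe] at hg1 hg2
      have hK3 : ∑ e, π e * ∑ f, |K e f| ≤ A := by
        rw [hA, ← hπ1]
        refine le_trans ?_ (add_le_add le_rfl hg3)
        rw [← sum_add_distrib]
        refine sum_le_sum fun e _ => ?_
        rw [← mul_one_add]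
        refine mul_le_mul_of_nonneg_left ?_ (hπ e).le
        have : ∑ f, (if e = f then (1 : ℝ) else 0) = 1 := by simp
        rw [← this, ← sum_add_distrib]
        refine sum_le_sum fun f _ => ?_
        rw [hKe]
        refine (abs_sub _ _).trans (add_le_add (le_of_eq ?_) le_rfl)
        split_ifs <;> simp
      have hKu : ∀ e ω, ∑ f, K e f * u f ω = 0 := fun e ω => by
        simp_rw [hue]; exact hg1 (fun x => F x ω) e
      have hc := hcomm (X × X) Ω π (fun e => (hπ e).le) hπ1 μ hμ K A hA1 hg2 hK3 u hKu hFp S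
      obtain ⟨H, hH⟩ : ∃ H : Fin (S + 4 * L) → X → Ω → ℝ,
          H = fun (l : Fin (S + 4 * L)) x ω => ∑ f, W l f ω * g f x := ⟨_, rfl⟩
      have hG : ∀ (l : Fin (S + 4 * L)) (e : X × X) ω,
          (H l e.1 ω - H l e.2 ω) / t e = ∑ f, Pr e f * W l f ω := by
        intro l e ω
        rw [hH]
        simp only
        rw [← sum_sub_distrib, sum_div]
        refine sum_congr rfl fun f _ => ?_
        rw [hPre]; ring
      have hGW : ∀ (l : ℕ) (e : X × X) ω, ∑ f, Pr e f * W l f ω - W l e ω =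
          ∑ σ ∈ range S, (κ (l - (σ + 1)) - κ (l - σ)) * -(∑ f, K e f * hi σ (u f ω)) := by
        intro l e ω
        have h1 : ∑ f, Pr e f * W l f ω - W l e ω = -∑ f, K e f * W l f ω := by
          simp_rw [hKe, sub_mul, sum_sub_distrib, ite_mul, one_mul, zero_mul]
          rw [sum_ite_eq, if_pos (mem_univ _)]; ring
        rw [h1]
        simp_rw [hWe, fun f => tele κ (u f ω) (j f ω) S l (hj f ω) (hjS f ω), mul_add,
          sum_add_distrib, mul_left_comm (K e _) (κ l)]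
        rw [← mul_sum, hKu, mul_zero, zero_add]
        simp_rw [mul_neg, sum_neg_distrib, mul_sum]
        rw [sum_comm]
        congr 1
        exact sum_congr rfl fun σ _ => sum_congr rfl fun f _ => by ring
      have herr : ∀ e, wn p (fun i : Fin (S + 4 * L) × Ω => μ i.2)
          (fun i => (H i.1 e.1 i.2 - H i.1 e.2 i.2) / t e - W i.1 e i.2) ≤
          2 / L * wn p μ (fun ω => ∑ σ ∈ range S, |∑ f, K e f * hi σ (u f ω)|) := by
        intro e
        refine wn_le_of hp0 hν _ _ (mul_nonneg (by positivity) (wn_nonneg hμ _)) ?_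
        rw [Real.mul_rpow (by positivity) (wn_nonneg hμ _), wn_rpow hp0 hμ,
          Fintype.sum_prod_type_right, mul_sum]
        refine sum_le_sum fun ω _ => ?_
        simp only
        simp_rw [hG, hGW]
        rw [← mul_sum, mul_left_comm, Fin.sum_univ_eq_sum_range (fun l => |∑ σ ∈ range S,
          (κ (l - (σ + 1)) - κ (l - σ)) * -(∑ f, K e f * hi σ (u f ω))| ^ p)]
        refine mul_le_mul_of_nonneg_left ?_ (hμ ω)
        have := conv_bound hp.le (S + 4 * L) S (fun l σ => κ (l - (σ + 1)) - κ (l - σ))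
          (fun σ => -(∑ f, K e f * hi σ (u f ω))) _ (fun σ => hκd σ _)
        simp only [abs_neg] at this
        rw [abs_of_nonneg (sum_nonneg fun σ _ => abs_nonneg _)]
        exact this
      have hR0 : ∀ e, 0 ≤ ∑ f, |Pr e f| := fun e => sum_nonneg fun f _ => abs_nonneg _
      refine ⟨fun e => 2 / L * wn p μ (fun ω => ∑ σ ∈ range S, |∑ f, K e f * hi σ (u f ω)|) / η +
        (∑ f, |Pr e f|) / A, ⟨fun e => ?_, H, fun e => ?_⟩, ?_⟩
      · have := wn_nonneg (p := p) hμ (fun ω => ∑ σ ∈ range S, |∑ f, K e f * hi σ (u f ω)|)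
        have := hR0 e
        positivity
      · have hn := wn_nonneg (p := p) hμ (fun ω => ∑ σ ∈ range S, |∑ f, K e f * hi σ (u f ω)|)
        have hR := hR0 e
        obtain ⟨a, ha⟩ : ∃ a, a = 2 / L *
            wn p μ (fun ω => ∑ σ ∈ range S, |∑ f, K e f * hi σ (u f ω)|) := ⟨_, rfl⟩
        have ha0 : 0 ≤ a := by rw [ha]; positivity
        have herr' := herr e
        simp only
        rw [← ha] at herr' ⊢
        have key : ∀ b, 0 ≤ b → (∑ f, |Pr e f|) * b ≤ (a / η + (∑ f, |Pr e f|) / A) * (A * b) := by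
          intro b hb
          have h1 : 0 ≤ a / η * (A * b) := by positivity
          have h2 : (∑ f, |Pr e f|) / A * (A * b) = (∑ f, |Pr e f|) * b := by field_simp
          rw [add_mul, h2]; linarith
        refine ⟨fun l ω => ?_, fun l => ?_, ?_⟩
        · refine le_trans ?_ (key _ (by positivity))
          rw [hG, sum_mul]
          refine (abs_sum_le_sum_abs _ _).trans (sum_le_sum fun f _ => ?_)
          rw [abs_mul]
          exact mul_le_mul_of_nonneg_left (hWinf _ _ _) (abs_nonneg _)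
        · refine le_trans ?_ (key _ (hw0 _))
          simp_rw [hG]
          calc _ ≤ ∑ ω, μ ω * ∑ f, |Pr e f| * |W l f ω| := by
                refine sum_le_sum fun ω _ => mul_le_mul_of_nonneg_left ?_ (hμ ω)
                refine (abs_sum_le_sum_abs _ _).trans (le_of_eq ?_)
                exact sum_congr rfl fun f _ => abs_mul _ _
            _ = ∑ f, |Pr e f| * ∑ ω, μ ω * |W l f ω| := by
                simp_rw [mul_sum]
                rw [sum_comm]
                exact sum_congr rfl fun f _ => sum_congr rfl fun ω _ => by ring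
            _ ≤ ∑ f, |Pr e f| * w l :=
                sum_le_sum fun f _ => mul_le_mul_of_nonneg_left (hW1 _ _) (abs_nonneg _)
            _ = _ := by rw [sum_mul]
        · refine herr'.trans ?_
          have h1 : 0 ≤ (∑ f, |Pr e f|) / A * η := by positivity
          have h2 : a / η * η = a := by field_simp
          rw [add_mul, h2]; linarith
      · simp_rw [mul_add]
        rw [sum_add_distrib]
        have h1 : ∑ e, π e * (2 / L *
            wn p μ (fun ω => ∑ σ ∈ range S, |∑ f, K e f * hi σ (u f ω)|) / η) ≤ 1 := by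
          simp_rw [← mul_div_assoc, mul_left_comm (π _)]
          rw [← sum_div, ← mul_sum, div_le_one hη0, hη]
          exact mul_le_mul_of_nonneg_left hc (by positivity)
        have h2 : ∑ e, π e * ((∑ f, |Pr e f|) / A) ≤ 1 := by
          simp_rw [← mul_div_assoc]
          rw [← sum_div, div_le_one hA0]
          linarith
        linarith)
  refine ⟨H, fun e => ⟨fun l ω => ((hH e).1 l ω).trans ?_, fun l => ((hH e).2.1 l).trans ?_, ?_⟩⟩
  · exact mul_le_mul_of_nonneg_right (hv e).le (by positivity)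
  · exact mul_le_mul_of_nonneg_right (hv e).le (mul_nonneg hA0.le (hw0 _))
  · have h1 := wn_sub_le hp.le hν (fun i => (H i.1 e.1 i.2 - H i.1 e.2 i.2) / t e)
      (fun i => W i.1 e i.2)
    rw [hWn] at h1
    exact h1.trans ((hH e).2.2.trans (mul_le_mul_of_nonneg_right (hv e).le hη0.le))

end Crest.Agent.R232
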