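import Crest.Agent.R232.Heat

/-! Localization of electrical flows: the `π`-orthogonal projection onto gradients has an
entrywise `ℓ¹` mass at most `24 log n`. -/

set_option autoImplicit false

namespace Crest.Agent.R232
open Finset Filter Topology

variable {X : Type*} [Fintype X] [DecidableEq X]

omit [DecidableEq X] in
lemma sum_sym (c : X × X → ℝ) (φ : X → X → ℝ) (hφ : ∀ x y, φ x y = φ y x) :
    ∑ x, ∑ y, (c (x, y) + c (y, x)) * φ x y = 2 * ∑ e, c e * φ e.1 e.2 := by
  simp_rw [add_mul, sum_add_distrib]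
  rw [Fintype.sum_prod_type, two_mul]
  congr 1
  rw [sum_comm]
  exact sum_congr rfl fun x _ => sum_congr rfl fun y _ => by rw [hφ]

lemma half_sum (a : ℕ → ℝ) (ha : ∀ k, 0 ≤ a k) (B : ℝ) (hB : ∀ K, ∑ k ∈ range K, a k ≤ B)
    (K : ℕ) : ∑ k ∈ range (2 * K), (a (k / 2) + a ((k + 1) / 2)) ≤ 4 * B := by
  have h1 : ∑ k ∈ range (2 * K), (a (k / 2) + a ((k + 1) / 2)) =
      3 * ∑ k ∈ range K, a k + ∑ k ∈ range K, a (k + 1) := by
    induction K with
    | zero => simp
    | succ K ih =>
      rw [show 2 * (K + 1) = 2 * K + 1 + 1 by ring, sum_range_succ, sum_range_succ, ih,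
        sum_range_succ, sum_range_succ]
      rw [show 2 * K / 2 = K by omega, show (2 * K + 1) / 2 = K by omega,
        show (2 * K + 1 + 1) / 2 = K + 1 by omega]
      ring
  have h2 := hB (K + 1)
  rw [sum_range_succ'] at h2
  have := hB K
  have := ha 0
  linarith

theorem localization (π : X × X → ℝ) (hπ : ∀ e, 0 < π e) (hπ1 : ∑ e, π e = 1)
    (t : X × X → ℝ) (ht : ∀ e, 0 < t e) (g : X × X → X → ℝ)
    (hg : ∀ f, ∀ h : X → ℝ, ∑ e, π e * ((g f e.1 - g f e.2) / t e - if e = f then 1 else 0) *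
      ((h e.1 - h e.2) / t e) = 0) :
    ∑ e, π e * ∑ f, |(g f e.1 - g f e.2) / t e| ≤ 24 * Real.log (Fintype.card X) := by
  obtain ⟨c, hc⟩ : ∃ c : X × X → ℝ, c = fun e => π e / t e ^ 2 := ⟨_, rfl⟩
  have hc0 : ∀ e, 0 < c e := fun e => by rw [hc]; exact div_pos (hπ e) (pow_pos (ht e) 2)
  obtain ⟨m, hm⟩ : ∃ m : X → ℝ, m = fun x => ∑ y, (π (x, y) + π (y, x)) := ⟨_, rfl⟩
  have hm0 : ∀ x, 0 < m x := fun x => by
    rw [hm]; exact sum_pos (fun y _ => add_pos (hπ _) (hπ _)) ⟨x, mem_univ x⟩
  have hmsum : ∀ q : X → ℝ, ∑ x, m x * q x = ∑ e, π e * (q e.1 + q e.2) := by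
    intro q
    rw [hm]
    simp_rw [sum_mul, add_mul, mul_add, sum_add_distrib]
    rw [Fintype.sum_prod_type, Fintype.sum_prod_type]
    congr 1
    rw [sum_comm]
  have hM : ∑ x, m x = 2 := by
    have := hmsum (fun _ => 1)
    simp only [mul_one] at this
    rw [this, ← sum_mul, hπ1]; norm_num
  obtain ⟨deg, hdeg⟩ : ∃ deg : X → ℝ, deg = fun x => ∑ y, (c (x, y) + c (y, x)) := ⟨_, rfl⟩
  have hdeg0 : ∀ x, 0 ≤ deg x := fun x => by
    rw [hdeg]; exact sum_nonneg fun y _ => (add_pos (hc0 _) (hc0 _)).le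
  obtain ⟨T, hT⟩ : ∃ T, T = ∑ x, deg x / m x := ⟨_, rfl⟩
  have hT0 : 0 ≤ T := hT ▸ sum_nonneg fun x _ => div_nonneg (hdeg0 x) (hm0 x).le
  obtain ⟨τ, hτ⟩ : ∃ τ, τ = 1 / (2 * T + 1) := ⟨_, rfl⟩
  have hτ0 : 0 < τ := by rw [hτ]; positivity
  have hτd : ∀ x, τ * deg x / m x ≤ 1 / 2 := by
    intro x
    have h1 : deg x / m x ≤ T := hT ▸ single_le_sum (f := fun x => deg x / m x)
      (fun x _ => div_nonneg (hdeg0 x) (hm0 x).le) (mem_univ x)
    have h2 : τ * (2 * T + 1) = 1 := by rw [hτ]; field_simp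
    have h3 := mul_le_mul_of_nonneg_left h1 hτ0.le
    rw [mul_div_assoc]
    nlinarith
  obtain ⟨P, hP⟩ : ∃ P : Matrix X X ℝ, P = fun x y => τ * (c (x, y) + c (y, x)) / m x +
      if x = y then 1 - τ * deg x / m x else 0 := ⟨_, rfl⟩
  have hPxy : ∀ x y, P x y = τ * (c (x, y) + c (y, x)) / m x +
      if x = y then 1 - τ * deg x / m x else 0 := fun x y => by rw [hP]
  have hoff : ∀ x y, 0 ≤ τ * (c (x, y) + c (y, x)) / m x := fun x y =>
    div_nonneg (mul_nonneg hτ0.le (add_pos (hc0 _) (hc0 _)).le) (hm0 x).le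
  have hPact : ∀ (q : X → ℝ) x, ∑ y, P x y * q y =
      q x - τ / m x * ∑ y, (c (x, y) + c (y, x)) * (q x - q y) := by
    intro q x
    simp_rw [hPxy, add_mul, sum_add_distrib, ite_mul, zero_mul]
    rw [sum_ite_eq, if_pos (mem_univ _), hdeg]
    simp_rw [← sum_add_distrib]
    have e1 : ∑ y, τ * (c (x, y) + c (y, x)) / m x * q y =
        τ / m x * ∑ y, (c (x, y) * q y + c (y, x) * q y) := by
      rw [mul_sum]; exact sum_congr rfl fun y _ => by ring
    have e2 : ∑ y, (c (x, y) * (q x - q y) + c (y, x) * (q x - q y)) =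
        (∑ y, (c (x, y) + c (y, x))) * q x - ∑ y, (c (x, y) * q y + c (y, x) * q y) := by
      rw [sum_mul, ← sum_sub_distrib]; exact sum_congr rfl fun y _ => by ring
    rw [e1, e2]
    ring
  have hch : Chain m P := by
    refine ⟨hm0, ?_, ?_, ?_, ?_⟩
    · intro x y
      rw [hPxy]
      have := hoff x y
      have := hτd x
      split_ifs <;> linarith
    · intro x
      have := hPact (fun _ => 1) x
      simpa using this
    · intro x y
      rw [hPxy, hPxy]
      by_cases hxy : x = y
      · subst hxy; rfl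
      · rw [if_neg hxy, if_neg (Ne.symm hxy)]
        have := (hm0 x).ne'
        have := (hm0 y).ne'
        field_simp
        ring
    · intro x
      rw [hPxy, if_pos rfl]
      have := hoff x x
      have := hτd x
      linarith
  have hdir : ∀ q : X → ℝ, dir m P q = 2 * τ * ∑ e, c e * (√(q e.1) - √(q e.2)) ^ 2 := by
    intro q
    rw [mul_assoc, mul_left_comm, ← sum_sym c (fun x y => (√(q x) - √(q y)) ^ 2)
      (fun x y => by ring), mul_sum]
    unfold dir
    refine sum_congr rfl fun x _ => ?_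
    rw [mul_sum]
    refine sum_congr rfl fun y _ => ?_
    rw [hPxy]
    have := (hm0 x).ne'
    by_cases hxy : x = y
    · subst hxy; simp
    · rw [if_neg hxy]; field_simp; ring
  -- the Laplacian of the potentials
  have hL : ∀ f x, ∑ y, (c (x, y) + c (y, x)) * (g f x - g f y) =
      π f / t f * ((if x = f.1 then 1 else 0) - if x = f.2 then 1 else 0) := by
    intro f x
    have h1 := hg f (fun y => if x = y then 1 else 0)
    have e1 : ∀ e : X × X, π e * ((g f e.1 - g f e.2) / t e - if e = f then 1 else 0) *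
        (((if x = e.1 then 1 else 0) - if x = e.2 then 1 else 0) / t e) =
        (if x = e.1 then c e * (g f e.1 - g f e.2) else 0) -
        (if x = e.2 then c e * (g f e.1 - g f e.2) else 0) -
        if e = f then π e / t e * ((if x = e.1 then 1 else 0) - if x = e.2 then 1 else 0)
          else 0 := by
      intro e
      have := (ht e).ne'
      rw [hc]
      split_ifs <;> field_simp <;> ring
    simp_rw [e1] at h1
    rw [sum_sub_distrib, sum_sub_distrib, sum_ite_eq', if_pos (mem_univ _),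
      Fintype.sum_prod_type, Fintype.sum_prod_type_right] at h1
    simp only [sum_ite_irrel, sum_const_zero, sum_ite_eq, mem_univ, if_true] at h1
    rw [← sum_sub_distrib, sub_eq_zero] at h1
    rw [← h1]
    exact sum_congr rfl fun y _ => by ring
  have hstep : ∀ f x, g f x - ∑ y, P x y * g f y =
      τ * (π f / t f) * (hk m P 0 x f.1 - hk m P 0 x f.2) := by
    intro f x
    rw [hPact, hL]
    unfold hk
    simp only [pow_zero, Matrix.one_apply]
    have := (hm0 x).ne'
    split_ifs with h1 h2 h2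
    · simp [← h1, ← h2]
    · rw [← h1]; field_simp; ring
    · rw [← h2]; field_simp; ring
    · simp
  have hrep : ∀ K f x, g f x = ∑ z, m z * g f z * hk m P K x z +
      τ * (π f / t f) * ∑ k ∈ range K, (hk m P k x f.1 - hk m P k x f.2) := by
    intro K f
    induction K with
    | zero =>
      intro x
      simp only [range_zero, sum_empty, mul_zero, add_zero]
      rw [sum_eq_single x]
      · unfold hk
        have := (hm0 x).ne'
        simp only [pow_zero, Matrix.one_apply_eq]
        field_simp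
      · intro z _ hz
        simp [hk, Ne.symm hz]
      · simp
    | succ K ih =>
      intro x
      have h1 := hstep f x
      have h2 : ∑ y, P x y * g f y = ∑ z, m z * g f z * hk m P (K + 1) x z +
          τ * (π f / t f) * ∑ k ∈ range K, (hk m P (k + 1) x f.1 - hk m P (k + 1) x f.2) := by
        have e1 : ∀ y, P x y * g f y = ∑ z, m z * g f z * (P x y * hk m P K y z) +
            τ * (π f / t f) * ∑ k ∈ range K, (P x y * hk m P k y f.1 - P x y * hk m P k y f.2) := by
          intro y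
          conv_lhs => rw [ih y]
          rw [mul_add, mul_sum, mul_left_comm, mul_sum]
          congr 1
          · exact sum_congr rfl fun z _ => by ring
          · congr 1
            exact sum_congr rfl fun k _ => by ring
        rw [sum_congr rfl fun y _ => e1 y, sum_add_distrib, ← mul_sum, sum_comm]
        congr 1
        · refine sum_congr rfl fun z _ => ?_
          rw [hk_succ, mul_sum]
        · congr 1
          rw [sum_comm]
          refine sum_congr rfl fun k _ => ?_
          rw [hk_succ, hk_succ, sum_sub_distrib]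
      rw [sum_range_succ']
      rw [h2] at h1
      linarith
  obtain ⟨I, hI⟩ : ∃ I : ℕ → X → ℝ, I = fun k z =>
      ∑ e, π e / t e * |hk m P k e.1 z - hk m P k e.2 z| := ⟨_, rfl⟩
  have hIk : ∀ k z, I k z = ∑ e, π e / t e * |hk m P k e.1 z - hk m P k e.2 z| :=
    fun k z => by rw [hI]
  have hI0 : ∀ k z, 0 ≤ I k z := fun k z => by
    rw [hIk]
    exact sum_nonneg fun e _ => mul_nonneg (div_pos (hπ e) (ht e)).le (abs_nonneg _)
  have hI2 : ∀ k z, τ * I k z ^ 2 ≤ dir m P (fun x => hk m P k x z) := by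
    intro k z
    rw [hdir, hIk]
    have h1 := sum_sq_le_sum_mul_sum_of_sq_le_mul (univ : Finset (X × X))
      (r := fun e => π e / t e * |hk m P k e.1 z - hk m P k e.2 z|)
      (f := fun e => π e * (2 * (hk m P k e.1 z + hk m P k e.2 z)))
      (g := fun e => c e * (√(hk m P k e.1 z) - √(hk m P k e.2 z)) ^ 2)
      (fun e _ => mul_nonneg (hπ e).le (mul_nonneg (by norm_num)
        (add_nonneg (hch.hk_nonneg _ _ _) (hch.hk_nonneg _ _ _))))
      (fun e _ => mul_nonneg (hc0 e).le (sq_nonneg _))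
      (fun e _ => by
        obtain ⟨α, hα⟩ : ∃ α, α = √(hk m P k e.1 z) := ⟨_, rfl⟩
        obtain ⟨β, hβ⟩ : ∃ β, β = √(hk m P k e.2 z) := ⟨_, rfl⟩
        have ha : hk m P k e.1 z = α ^ 2 := by rw [hα, Real.sq_sqrt (hch.hk_nonneg _ _ _)]
        have hb : hk m P k e.2 z = β ^ 2 := by rw [hβ, Real.sq_sqrt (hch.hk_nonneg _ _ _)]
        rw [← hα, ← hβ, ha, hb, mul_pow, sq_abs, hc]
        have h2 : (α ^ 2 - β ^ 2) ^ 2 ≤ 2 * (α ^ 2 + β ^ 2) * (α - β) ^ 2 := by
          have : (α + β) ^ 2 ≤ 2 * (α ^ 2 + β ^ 2) := by nlinarith [sq_nonneg (α - β)]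
          have := mul_le_mul_of_nonneg_right this (sq_nonneg (α - β))
          nlinarith
        have h3 := mul_le_mul_of_nonneg_left h2 (sq_nonneg (π e / t e))
        refine h3.trans (le_of_eq ?_)
        have := (ht e).ne'
        field_simp)
    have h2 : ∑ e, π e * (2 * (hk m P k e.1 z + hk m P k e.2 z)) = 2 := by
      have := hmsum (fun x => hk m P k x z)
      rw [hch.hk_mass] at this
      simp_rw [mul_left_comm _ (2 : ℝ)]
      rw [← mul_sum, ← this, mul_one]
    rw [h2] at h1
    have := mul_le_mul_of_nonneg_left h1 hτ0.le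
    linarith
  obtain ⟨a, ha⟩ : ∃ a : ℕ → ℝ, a = fun k => τ * ∑ z, m z * I k z ^ 2 := ⟨_, rfl⟩
  have hak : ∀ k, a k = τ * ∑ z, m z * I k z ^ 2 := fun k => by rw [ha]
  have ha0 : ∀ k, 0 ≤ a k := fun k => by
    rw [hak]
    exact mul_nonneg hτ0.le (sum_nonneg fun z _ => mul_nonneg (hm0 z).le (sq_nonneg _))
  have haB : ∀ K, ∑ k ∈ range K, a k ≤ 12 * Real.log (Fintype.card X) := by
    intro K
    have h1 := hch.dir_total K
    rw [hM] at h1
    refine le_trans (sum_le_sum fun k _ => ?_) (h1.trans (le_of_eq (by ring)))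
    rw [hak, mul_sum]
    refine sum_le_sum fun z _ => ?_
    have := mul_le_mul_of_nonneg_left (hI2 k z) (hm0 z).le
    linarith
  have halim : Tendsto a atTop (𝓝 0) :=
    (summable_of_sum_range_le ha0 haB).tendsto_atTop_zero
  have hIlim : ∀ z, Tendsto (fun k => I k z) atTop (𝓝 0) := by
    intro z
    have h1 : Tendsto (fun k => √(a k / (τ * m z))) atTop (𝓝 0) := by
      have := (halim.div_const (τ * m z)).sqrt
      simpa using this
    refine squeeze_zero (fun k => hI0 k z) (fun k => ?_) h1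
    apply Real.le_sqrt_of_sq_le
    rw [le_div_iff₀ (mul_pos hτ0 (hm0 z)), hak]
    have : m z * I k z ^ 2 ≤ ∑ z, m z * I k z ^ 2 :=
      single_le_sum (f := fun z => m z * I k z ^ 2)
        (fun z _ => mul_nonneg (hm0 z).le (sq_nonneg _)) (mem_univ z)
    have := mul_le_mul_of_nonneg_left this hτ0.le
    linarith
  -- the main estimate
  have hpair : ∀ i j, τ * ∑ e, ∑ f, π e / t e * (π f / t f) *
      |(hk m P (i + j) e.1 f.1 - hk m P (i + j) e.1 f.2) -
        (hk m P (i + j) e.2 f.1 - hk m P (i + j) e.2 f.2)| ≤ (a i + a j) / 2 := by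
    intro i j
    have h1 : ∀ e f : X × X, π e / t e * (π f / t f) *
        |(hk m P (i + j) e.1 f.1 - hk m P (i + j) e.1 f.2) -
          (hk m P (i + j) e.2 f.1 - hk m P (i + j) e.2 f.2)| ≤
        ∑ z, m z * ((π e / t e * |hk m P i e.1 z - hk m P i e.2 z|) *
          (π f / t f * |hk m P j f.1 z - hk m P j f.2 z|)) := by
      intro e f
      have e1 : (hk m P (i + j) e.1 f.1 - hk m P (i + j) e.1 f.2) -
          (hk m P (i + j) e.2 f.1 - hk m P (i + j) e.2 f.2) =
          ∑ z, m z * ((hk m P i e.1 z - hk m P i e.2 z) * (hk m P j f.1 z - hk m P j f.2 z)) := by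
        simp_rw [hch.hk_add, ← sum_sub_distrib]
        exact sum_congr rfl fun z _ => by ring
      rw [e1]
      refine (mul_le_mul_of_nonneg_left (abs_sum_le_sum_abs _ _)
        (mul_pos (div_pos (hπ e) (ht e)) (div_pos (hπ f) (ht f))).le).trans (le_of_eq ?_)
      rw [mul_sum]
      refine sum_congr rfl fun z _ => ?_
      rw [abs_mul, abs_mul, abs_of_pos (hm0 z)]
      ring
    have h2 : ∑ e, ∑ f, ∑ z, m z * ((π e / t e * |hk m P i e.1 z - hk m P i e.2 z|) *
          (π f / t f * |hk m P j f.1 z - hk m P j f.2 z|)) = ∑ z, m z * (I i z * I j z) := by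
      simp_rw [hIk, sum_mul_sum, mul_sum]
      rw [sum_comm (s := univ) (t := univ) (f := fun (z : X) (e : X × X) => ∑ f : X × X,
        m z * ((π e / t e * |hk m P i e.1 z - hk m P i e.2 z|) *
          (π f / t f * |hk m P j f.1 z - hk m P j f.2 z|)))]
      exact sum_congr rfl fun e _ => sum_comm
    have h3 : τ * ∑ z, m z * (I i z * I j z) ≤ (a i + a j) / 2 := by
      rw [hak, hak, ← mul_add, ← sum_add_distrib, mul_div_assoc, sum_div]
      refine mul_le_mul_of_nonneg_left (sum_le_sum fun z _ => ?_) hτ0.le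
      have := mul_nonneg (hm0 z).le (sq_nonneg (I i z - I j z))
      nlinarith
    refine le_trans (mul_le_mul_of_nonneg_left ?_ hτ0.le) h3
    rw [← h2]
    exact sum_le_sum fun e _ => sum_le_sum fun f _ => h1 e f
  have hmain : ∀ K, ∑ e, π e * ∑ f, |(g f e.1 - g f e.2) / t e| ≤
      ∑ z, m z * (∑ f, |g f z|) * I (2 * K) z + 24 * Real.log (Fintype.card X) := by
    intro K
    have h1 : ∀ e f : X × X, π e * |(g f e.1 - g f e.2) / t e| ≤
        ∑ z, m z * |g f z| * (π e / t e * |hk m P (2 * K) e.1 z - hk m P (2 * K) e.2 z|) +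
        ∑ k ∈ range (2 * K), τ * (π e / t e * (π f / t f) *
          |(hk m P k e.1 f.1 - hk m P k e.1 f.2) - (hk m P k e.2 f.1 - hk m P k e.2 f.2)|) := by
      intro e f
      have e1 : g f e.1 - g f e.2 =
          ∑ z, m z * g f z * (hk m P (2 * K) e.1 z - hk m P (2 * K) e.2 z) +
          ∑ k ∈ range (2 * K), τ * (π f / t f) *
            ((hk m P k e.1 f.1 - hk m P k e.1 f.2) - (hk m P k e.2 f.1 - hk m P k e.2 f.2)) := by
        conv_lhs => rw [hrep (2 * K) f e.1, hrep (2 * K) f e.2]
        simp_rw [mul_sub (m _ * g f _), sum_sub_distrib, ← mul_sum, sum_sub_distrib]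
        ring
      rw [abs_div, abs_of_pos (ht e), ← mul_div_assoc, mul_div_right_comm, e1]
      have hpe := (div_pos (hπ e) (ht e)).le
      refine (mul_le_mul_of_nonneg_left ((abs_add_le _ _).trans
        (add_le_add (abs_sum_le_sum_abs _ _) (abs_sum_le_sum_abs _ _))) hpe).trans (le_of_eq ?_)
      rw [mul_add, mul_sum, mul_sum]
      congr 1
      · refine sum_congr rfl fun z _ => ?_
        rw [abs_mul, abs_mul, abs_of_pos (hm0 z)]
        ring
      · refine sum_congr rfl fun k _ => ?_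
        rw [abs_mul, abs_of_pos (mul_pos hτ0 (div_pos (hπ f) (ht f)))]
        ring
    simp_rw [mul_sum]
    refine (sum_le_sum fun e _ => sum_le_sum fun f _ => h1 e f).trans ?_
    simp_rw [sum_add_distrib]
    refine add_le_add (le_of_eq ?_) ?_
    · simp_rw [hIk, sum_mul_sum]
      rw [sum_comm]
      rw [sum_comm (s := univ) (t := univ) (f := fun (z : X) (f : X × X) => ∑ e : X × X,
        m z * |g f z| * (π e / t e * |hk m P (2 * K) e.1 z - hk m P (2 * K) e.2 z|))]
      exact sum_congr rfl fun e _ => sum_comm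
    · have h2 := half_sum a ha0 _ haB K
      have h3 : ∑ e : X × X, ∑ f : X × X, ∑ k ∈ range (2 * K), τ * (π e / t e * (π f / t f) *
          |(hk m P k e.1 f.1 - hk m P k e.1 f.2) - (hk m P k e.2 f.1 - hk m P k e.2 f.2)|) =
          ∑ k ∈ range (2 * K), τ * ∑ e : X × X, ∑ f : X × X, π e / t e * (π f / t f) *
          |(hk m P k e.1 f.1 - hk m P k e.1 f.2) - (hk m P k e.2 f.1 - hk m P k e.2 f.2)| := by
        simp_rw [mul_sum]
        rw [sum_comm (s := range (2 * K))]
        exact sum_congr rfl fun e _ => sum_comm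
      rw [h3]
      have h4 : ∑ k ∈ range (2 * K), τ * ∑ e : X × X, ∑ f : X × X, π e / t e * (π f / t f) *
          |(hk m P k e.1 f.1 - hk m P k e.1 f.2) - (hk m P k e.2 f.1 - hk m P k e.2 f.2)| ≤
          ∑ k ∈ range (2 * K), (a (k / 2) + a ((k + 1) / 2)) / 2 := by
        refine sum_le_sum fun k _ => ?_
        have := hpair (k / 2) ((k + 1) / 2)
        rwa [show k / 2 + (k + 1) / 2 = k by omega] at this
      rw [← sum_div] at h4
      linarith
  have hlim : Tendsto (fun K => ∑ z, m z * (∑ f, |g f z|) * I (2 * K) z +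
      24 * Real.log (Fintype.card X)) atTop (𝓝 (0 + 24 * Real.log (Fintype.card X))) := by
    refine Tendsto.add_const _ ?_
    have : Tendsto (fun K => ∑ z, m z * (∑ f, |g f z|) * I (2 * K) z) atTop
        (𝓝 (∑ z, m z * (∑ f, |g f z|) * 0)) :=
      tendsto_finsetSum _ fun z _ => Tendsto.const_mul _
        ((hIlim z).comp (tendsto_id.const_mul_atTop' (by norm_num)))
    simpa using this
  rw [zero_add] at hlim
  exact ge_of_tendsto' hlim hmain

end Crest.Agent.R232
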