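import Crest.Agent.R232.Levels
import Crest.Agent.R232.Hash
import Crest.Agent.R232.Finite

/-! Assembly of the dimension reduction theorem. -/

set_option autoImplicit false

namespace Crest.Agent.R232
open Finset Filter Topology

theorem fin_embed (p : ℝ) (hp : 1 < p) (hp2 : p ≠ 2) (δ : ℝ) (hδ0 : 0 < δ) (hδ1 : δ ≤ 1) :
    ∃ C : ℝ, ∀ (X Ω : Type) [Fintype X] [Fintype Ω], 2 ≤ Fintype.card X → ∀ (μ : Ω → ℝ),
    (∀ ω, 0 ≤ μ ω) → ∑ ω, μ ω = 1 → ∀ (t : X × X → ℝ), (∀ e, 0 < t e) → ∀ (F : X → Ω → ℝ),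
    (∀ (e : X × X) ω, |(F e.1 ω - F e.2 ω) / t e| ^ p ≤ (Fintype.card X : ℝ) ^ 2) →
    (∀ e : X × X, ∑ ω, μ ω * |(F e.1 ω - F e.2 ω) / t e| ^ p ≤ 2) →
    ∃ d : ℕ, (d : ℝ) ≤ Real.exp (C * Real.log (Fintype.card X) ^
        (if p < 2 then 2 - p else 1 - 2 / p)) ∧
      ∃ y : X → Fin d → ℝ, ∀ e : X × X, ∃ a : ℝ, 0 ≤ a ∧
        |a - wn p μ (fun ω => (F e.1 ω - F e.2 ω) / t e)| ≤ δ ∧
        |∑ k, |y e.1 k - y e.2 k| ^ p - a ^ p * t e ^ p| ≤ δ * t e ^ p := by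
  classical
  obtain ⟨C, hC, hlev⟩ := levels p hp hp2
  obtain ⟨C0, hhash⟩ := hash_sample p hp
  have hp0 : 0 < p := by linarith
  obtain ⟨γ, hγ⟩ : ∃ γ, γ = if p < 2 then 2 - p else 1 - 2 / p := ⟨_, rfl⟩
  have hγ0 : 0 < γ := by
    rw [hγ]
    split_ifs with h
    · linarith
    · have : 2 < p := lt_of_le_of_ne (not_lt.mp h) (Ne.symm hp2)
      rw [sub_pos, div_lt_one hp0]; exact this
  rw [← hγ] at hlev ⊢
  obtain ⟨c1, hc1⟩ : ∃ c1, c1 = 6 * C / δ + 1 := ⟨_, rfl⟩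
  have hc10 : 0 < c1 := by rw [hc1]; positivity
  obtain ⟨c0, hc0⟩ : ∃ c0, c0 = 9 + 1 / δ := ⟨_, rfl⟩
  have hδi : 0 < 1 / δ := by positivity
  have hc09 : 9 ≤ c0 := by rw [hc0]; linarith
  obtain ⟨c2, hc2⟩ : ∃ c2, c2 = c0 + 1 / γ + 4 * p * c1 := ⟨_, rfl⟩
  have hc20 : 0 < c2 := by rw [hc2]; positivity
  refine ⟨C0 * c2 * 26 ^ γ, ?_⟩
  intro X Ω _ _ hX μ hμ hμ1 t ht F hF1 hF2
  have : Nonempty X := Fintype.card_pos_iff.mp (by omega)
  obtain ⟨n, hn⟩ : ∃ n : ℝ, n = Fintype.card X := ⟨_, rfl⟩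
  have hn2 : 2 ≤ n := by rw [hn]; exact_mod_cast hX
  obtain ⟨ℓ, hℓ⟩ : ∃ ℓ, ℓ = Real.log n := ⟨_, rfl⟩
  have hlog2 : 1 / 2 ≤ Real.log 2 := by linarith [Real.log_two_gt_d9]
  have hlog2' : Real.log 2 ≤ 1 := by linarith [Real.log_two_lt_d9]
  have hℓ0 : 1 / 2 ≤ ℓ := hℓ ▸ hlog2.trans (Real.log_le_log (by norm_num) hn2)
  obtain ⟨A, hA⟩ : ∃ A, A = 1 + 24 * ℓ := ⟨_, rfl⟩
  have hA1 : 1 ≤ A := by linarith
  have hA0 : 0 < A := by linarith
  obtain ⟨Λ, hΛ⟩ : ∃ Λ, Λ = A ^ γ := ⟨_, rfl⟩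
  have hΛ1 : 1 ≤ Λ := hΛ ▸ Real.one_le_rpow hA1 hγ0.le
  have hΛℓ : Λ ≤ 26 ^ γ * ℓ ^ γ := by
    rw [hΛ, ← Real.mul_rpow (by norm_num) (by linarith)]
    exact Real.rpow_le_rpow hA0.le (by linarith) hγ0.le
  obtain ⟨L, hL⟩ : ∃ L : ℕ, L = ⌈6 * C * Λ / δ⌉₊ := ⟨_, rfl⟩
  have hx0 : 0 < 6 * C * Λ / δ := by positivity
  have hL1 : 1 ≤ L := hL ▸ Nat.ceil_pos.mpr hx0
  have hL0 : (0 : ℝ) < L := by exact_mod_cast hL1
  have hLlo : 6 * C * Λ / δ ≤ L := hL ▸ Nat.le_ceil _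
  have hLhi : (L : ℝ) ≤ c1 * Λ := by
    have := (hL ▸ Nat.ceil_lt_add_one hx0.le : (L : ℝ) < 6 * C * Λ / δ + 1)
    have e1 : c1 * Λ = 6 * C * Λ / δ + Λ := by rw [hc1]; ring
    linarith
  obtain ⟨S, hS⟩ : ∃ S : ℕ, S = ⌈4 * ℓ⌉₊ := ⟨_, rfl⟩
  have hSlo : 4 * ℓ ≤ S := hS ▸ Nat.le_ceil _
  have hShi : (S : ℝ) ≤ A := by
    have := (hS ▸ Nat.ceil_lt_add_one (by linarith) : (S : ℝ) < 4 * ℓ + 1)
    linarith
  have hnS : n ^ 2 < 2 ^ (S + 1) := by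
    have h1 : n ^ 2 ≤ 2 ^ S := by
      rw [← Real.log_le_log_iff (by positivity) (by positivity), Real.log_pow, Real.log_pow, ← hℓ]
      have := mul_le_mul_of_nonneg_left hlog2 (Nat.cast_nonneg (α := ℝ) S)
      push_cast
      linarith
    have : (0 : ℝ) < 2 ^ S := by positivity
    rw [pow_succ (2 : ℝ) S]
    linarith
  rw [← hn] at hF1
  obtain ⟨H, hH⟩ := hlev X Ω μ hμ hμ1 t ht F S L hL1 (fun e ω => by
    refine lt_of_le_of_lt ?_ hnS
    rcases le_total |(F e.1 ω - F e.2 ω) / t e| 1 with h | h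
    · nlinarith
    · have := Real.rpow_le_rpow_of_exponent_le h hp.le
      rw [Real.rpow_one] at this
      exact this.trans (hF1 e ω)) hF2 A (by rw [hA, hℓ, hn])
  obtain ⟨b, hb⟩ : ∃ b : ℝ, b = 2 ^ (4 * L) := ⟨_, rfl⟩
  have hb1 : 1 ≤ b := hb ▸ one_le_pow₀ (by norm_num)
  have hb0 : 0 < b := by linarith
  have hbL : (4 * L : ℝ) ≤ b := by
    rw [hb]
    exact_mod_cast (Nat.lt_two_pow_self (n := 4 * L)).le
  have hbp : b ≤ b ^ p := by
    conv_lhs => rw [← Real.rpow_one b]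
    exact Real.rpow_le_rpow_of_exponent_le hb1 hp.le
  have hbp' : b ^ (p - 1) ≤ b ^ p := Real.rpow_le_rpow_of_exponent_le hb1 (by linarith)
  have hbp1 : 1 ≤ b ^ (p - 1) := Real.one_le_rpow hb1 (by linarith)
  obtain ⟨J, hJ⟩ : ∃ J, J = 9 * A * b ^ (p - 1) := ⟨_, rfl⟩
  have hJA : 9 * A ≤ J := by
    rw [hJ]; exact le_mul_of_one_le_right (by positivity) hbp1
  have hJ0 : 0 < J := by linarith
  obtain ⟨Q, hQ⟩ : ∃ Q, Q = A * b ^ p := ⟨_, rfl⟩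
  have hQA : A ≤ Q := by rw [hQ]; exact le_mul_of_one_le_right hA0.le (hb1.trans hbp)
  have hQb : b ^ p ≤ Q := by rw [hQ]; exact le_mul_of_one_le_left (by positivity) hA1
  have hQJ : J ≤ 9 * Q := by
    rw [hJ, hQ, mul_assoc]
    exact mul_le_mul_of_nonneg_left (mul_le_mul_of_nonneg_left hbp' hA0.le) (by norm_num)
  have hZ9 : 9 * Q ≤ c0 * Q := mul_le_mul_of_nonneg_right hc09 (by linarith)
  have hZc : c0 ≤ c0 * Q := le_mul_of_one_le_right (by linarith) (by linarith)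
  obtain ⟨d, hd, y, hy⟩ := hhash X Ω μ hμ hμ1 (fun i j => t (i, j)) (fun i j => ht _)
    (S + 4 * L) H (fun l => J * 2 ^ (l : ℕ)) (fun l => J * ((2 : ℝ) ^ (l : ℕ)) ^ (1 - p)) J δ
    (c0 * Q) (fun l => by positivity)
    (fun l => by
      refine mul_le_mul_of_nonneg_left ?_ hJ0.le
      conv_rhs => rw [← Real.rpow_one (2 ^ (l : ℕ))]
      exact Real.rpow_le_rpow_of_exponent_le (one_le_pow₀ (by norm_num)) (by linarith))
    (by linarith)
    (fun l => by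
      refine le_of_eq ?_
      rw [Real.mul_rpow hJ0.le (by positivity), ← rpow_mul_self J p hJ0.le hp0]
      have : ((2 : ℝ) ^ (l : ℕ)) ^ (1 - p) * ((2 : ℝ) ^ (l : ℕ)) ^ (p - 1) = 1 := by
        rw [← Real.rpow_add (by positivity)]; simp
      linear_combination (J ^ (p - 1) * J) * this)
    (fun l i j ω => by
      have h1 := (hH (i, j)).1 l ω
      rw [abs_div, abs_of_pos (ht _), div_le_iff₀ (ht _)] at h1
      refine h1.trans (mul_le_mul_of_nonneg_right ?_ (ht _).le)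
      rw [← mul_assoc]
      exact mul_le_mul_of_nonneg_right (by linarith) (by positivity))
    (fun l i j => by
      have h1 := (hH (i, j)).2.1 l
      simp_rw [abs_div, abs_of_pos (ht _), ← mul_div_assoc] at h1
      rw [← sum_div, div_le_iff₀ (ht _)] at h1
      refine h1.trans (le_of_eq ?_)
      congr 1
      rw [← hb, Real.div_rpow (by positivity) hb0.le, hJ, ← neg_sub p 1, Real.rpow_neg hb0.le]
      field_simp
      ring)
    hδ0 hδ1 (by linarith) (by push_cast; linarith) (by linarith)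
    (by rw [← hn, ← hℓ]; linarith) (by rw [hc0] at hZc ⊢; linarith)
  refine ⟨d, hd.trans ?_, y, fun e => ⟨wn p (fun i : Fin (S + 4 * L) × Ω => μ i.2)
    (fun i => (H i.1 e.1 i.2 - H i.1 e.2 i.2) / t e), wn_nonneg (fun i : Fin (S + 4 * L) × Ω => hμ i.2) _, ?_, ?_⟩⟩
  · have hZ0 : 0 < c0 * Q := by linarith
    rw [← Real.exp_log (pow_pos hZ0 C0), Real.exp_le_exp, Real.log_pow, ← hn, ← hℓ, mul_assoc,
      mul_assoc]
    refine mul_le_mul_of_nonneg_left ?_ (Nat.cast_nonneg _)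
    refine le_trans ?_ (mul_le_mul_of_nonneg_left hΛℓ hc20.le)
    rw [hQ, Real.log_mul (by linarith) (by positivity), Real.log_mul hA0.ne' (by positivity),
      Real.log_rpow hb0, hb, Real.log_pow, hc2]
    have h1 : Real.log c0 ≤ c0 * Λ := by
      have := Real.log_le_sub_one_of_pos (by linarith : 0 < c0)
      have := le_mul_of_one_le_right (by linarith : 0 ≤ c0) hΛ1
      linarith
    have h2 : Real.log A ≤ 1 / γ * Λ := by
      have := Real.log_le_rpow_div hA0.le hγ0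
      rw [hΛ, one_div_mul_eq_div]; exact this
    have h3 : p * (((4 * L : ℕ) : ℝ) * Real.log 2) ≤ 4 * p * c1 * Λ := by
      have h4 : (L : ℝ) * Real.log 2 ≤ c1 * Λ :=
        (mul_le_of_le_one_right hL0.le hlog2').trans hLhi
      have := mul_le_mul_of_nonneg_left h4 (by positivity : 0 ≤ 4 * p)
      push_cast
      linarith
    linarith
  · refine (hH e).2.2.trans ?_
    rw [← hΛ]
    rw [div_le_iff₀ hδ0] at hLlo
    have e1 : 3 * (2 / L * (C * Λ)) = 6 * C * Λ / L := by ring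
    rw [e1, div_le_iff₀ hL0]
    linarith
  · have h1 := hy e.1 e.2
    have e1 : wn p (fun i : Fin (S + 4 * L) × Ω => μ i.2)
        (fun i => (H i.1 e.1 i.2 - H i.1 e.2 i.2) / t e) ^ p * t e ^ p =
        ∑ l, ∑ ω, μ ω * |H l e.1 ω - H l e.2 ω| ^ p := by
      rw [wn_rpow hp0 (fun i : Fin (S + 4 * L) × Ω => hμ i.2), sum_mul, Fintype.sum_prod_type]
      refine sum_congr rfl fun l _ => sum_congr rfl fun ω _ => ?_
      simp only
      rw [abs_div, abs_of_pos (ht e), Real.div_rpow (abs_nonneg _) (ht e).le]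
      have : 0 < t e ^ p := Real.rpow_pos_of_pos (ht e) p
      field_simp
    rw [e1]
    exact h1

lemma exists_delta (q D : ℝ) (hq : 0 < q) (hD : 1 < D) : ∃ δ : ℝ, 0 < δ ∧ δ ≤ 1 / 2 ∧
    0 < (1 - 2 * δ) ^ q - δ ∧ (1 + 2 * δ) ^ q + δ ≤ D ^ q * ((1 - 2 * δ) ^ q - δ) := by
  have h1 : Continuous fun δ : ℝ => (1 - 2 * δ) ^ q - δ :=
    (Continuous.rpow_const (by fun_prop) fun _ => Or.inr hq.le).sub continuous_id
  have h2 : Continuous fun δ : ℝ => (1 + 2 * δ) ^ q + δ :=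
    (Continuous.rpow_const (by fun_prop) fun _ => Or.inr hq.le).add continuous_id
  have hDq : 1 < D ^ q := Real.one_lt_rpow hD hq
  have e1 : ∀ᶠ δ in 𝓝 (0 : ℝ), 0 < (1 - 2 * δ) ^ q - δ :=
    continuous_const.continuousAt.eventually_lt h1.continuousAt (by simp)
  have e2 : ∀ᶠ δ in 𝓝 (0 : ℝ), (1 + 2 * δ) ^ q + δ < D ^ q * ((1 - 2 * δ) ^ q - δ) :=
    h2.continuousAt.eventually_lt (continuous_const.mul h1).continuousAt (by simpa using hDq)
  have e3 : ∀ᶠ δ in 𝓝 (0 : ℝ), δ < 1 / 2 := eventually_lt_nhds (by norm_num)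
  have e4 : ∀ᶠ δ in 𝓝[>] (0 : ℝ), 0 < δ := self_mem_nhdsWithin
  obtain ⟨δ, h3, h4, h5, h6⟩ := (e4.and ((e1.and (e2.and e3)).filter_mono nhdsWithin_le_nhds)).exists
  exact ⟨δ, h3, h6.le, h4, h5.le⟩

open MeasureTheory in
open scoped ENNReal in
theorem main_embed.{u} (p : ℝ≥0∞) [Fact (1 ≤ p)] (hp1 : 1 < p) (hptop : p ≠ ⊤) (hp2 : p ≠ 2)
    (D : ℝ) (hD : 1 < D) :
    ∃ C : ℝ, ∀ (n : ℕ), 2 ≤ n →
      ∀ (α : Type u) [MeasurableSpace α] (μ : Measure α) (x : Fin n → Lp ℝ p μ),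
        Function.Injective x →
        ∃ d : ℕ, (d : ℝ) ≤ Real.exp (C * Real.log n ^
            (if p.toReal < 2 then 2 - p.toReal else 1 - 2 / p.toReal)) ∧
          ∃ (y : Fin n → PiLp p (fun _ : Fin d => ℝ)) (s : ℝ), 0 < s ∧
            ∀ i j, s * ‖x i - x j‖ ≤ ‖y i - y j‖ ∧ ‖y i - y j‖ ≤ D * s * ‖x i - x j‖ := by
  have hq1 : 1 < p.toReal := by
    have := (ENNReal.toReal_lt_toReal (by simp) hptop).mpr hp1
    simpa using this
  have hq2 : p.toReal ≠ 2 := by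
    intro h
    apply hp2
    rw [← ENNReal.ofReal_toReal hptop, h]; simp
  have hq0 : 0 < p.toReal := by linarith
  obtain ⟨δ, hδ0, hδ1, hlo, hhi⟩ := exists_delta p.toReal D hq0 hD
  obtain ⟨C, hC⟩ := fin_embed p.toReal hq1 hq2 δ hδ0 (by linarith)
  refine ⟨C, fun n hn α _ μ x hx => ?_⟩
  obtain ⟨Ω, _, w, F, hw0, hw1, hF1, hF2⟩ := finite_reduction p hptop μ x hx (by simpa using hn) δ hδ0
  obtain ⟨q, hq⟩ : ∃ q, q = p.toReal := ⟨_, rfl⟩
  obtain ⟨t, ht⟩ : ∃ t : Fin n × Fin n → ℝ,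
      t = fun e => if e.1 = e.2 then 1 else ‖x e.1 - x e.2‖ := ⟨_, rfl⟩
  have hte : ∀ e : Fin n × Fin n, e.1 ≠ e.2 → t e = ‖x e.1 - x e.2‖ := fun e he => by
    rw [ht]; exact if_neg he
  have ht0 : ∀ e, 0 < t e := fun e => by
    by_cases he : e.1 = e.2
    · rw [ht]; simp [he]
    · rw [hte e he]; exact norm_pos_iff.mpr (sub_ne_zero.mpr fun h => he (hx h))
  have hdiv : ∀ (e : Fin n × Fin n) ω, |(F e.1 ω - F e.2 ω) / t e| ^ p.toReal =
      |F e.1 ω - F e.2 ω| ^ p.toReal / t e ^ p.toReal := fun e ω => by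
    rw [abs_div, abs_of_pos (ht0 e), Real.div_rpow (abs_nonneg _) (ht0 e).le]
  have hnear : ∀ e : Fin n × Fin n, e.1 ≠ e.2 →
      |∑ ω, w ω * |(F e.1 ω - F e.2 ω) / t e| ^ p.toReal - 1| ≤ δ := by
    intro e he
    have h1 := hF2 e.1 e.2
    rw [← hte e he] at h1
    have h2 : 0 < t e ^ p.toReal := Real.rpow_pos_of_pos (ht0 e) _
    simp_rw [hdiv, ← mul_div_assoc]
    rw [← sum_div, div_sub_one h2.ne', abs_div, abs_of_pos h2, div_le_iff₀ h2]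
    exact h1
  obtain ⟨d, hd, y, hy⟩ := hC (Fin n) Ω (by simpa using hn) w hw0 hw1 t ht0 F
    (fun e ω => by
      by_cases he : e.1 = e.2
      · rw [he, sub_self, zero_div, abs_zero, Real.zero_rpow hq0.ne']; positivity
      · rw [hdiv, div_le_iff₀ (Real.rpow_pos_of_pos (ht0 e) _), hte e he]
        exact hF1 _ _ _)
    (fun e => by
      by_cases he : e.1 = e.2
      · simp [he, Real.zero_rpow hq0.ne']
      · linarith [(abs_le.mp (hnear e he)).2])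
  rw [Fintype.card_fin] at hd
  refine ⟨d, hd, fun i => WithLp.toLp p (y i),
    ((1 - 2 * δ) ^ p.toReal - δ) ^ (1 / p.toReal), by positivity, fun i j => ?_⟩
  by_cases hij : i = j
  · subst hij; simp
  obtain ⟨a, ha0, ha1, ha2⟩ := hy (i, j)
  have hn1 := hnear (i, j) hij
  rw [← wn_rpow hq0 hw0] at hn1
  have hte' := hte (i, j) hij
  have ht0' := ht0 (i, j)
  have hw := wn_nonneg (p := p.toReal) hw0 (fun ω => (F i ω - F j ω) / t (i, j))
  simp only at ha1 ha2 hn1 hte'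
  obtain ⟨v, hv⟩ : ∃ v, v = wn p.toReal w (fun ω => (F i ω - F j ω) / t (i, j)) := ⟨_, rfl⟩
  rw [← hv] at ha1 hn1 hw
  rw [← hte']
  obtain ⟨τ, hτ⟩ : ∃ τ, τ = t (i, j) := ⟨_, rfl⟩
  rw [← hτ] at ha2 ht0' ⊢
  have hnorm : ‖(WithLp.toLp p (y i) : PiLp p (fun _ : Fin d => ℝ)) - WithLp.toLp p (y j)‖ ^
      p.toReal = ∑ k, |y i k - y j k| ^ p.toReal := by
    rw [PiLp.norm_eq_sum hq0, ← Real.rpow_mul (sum_nonneg fun k _ => by positivity),
      one_div_mul_cancel hq0.ne', Real.rpow_one]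
    simp
  rw [← hnorm] at ha2
  obtain ⟨N, hN⟩ : ∃ N, N = ‖(WithLp.toLp p (y i) : PiLp p (fun _ : Fin d => ℝ)) -
      WithLp.toLp p (y j)‖ := ⟨_, rfl⟩
  have hN0 : 0 ≤ N := hN ▸ norm_nonneg _
  rw [← hN] at ha2 ⊢
  rw [← hq] at hq0 hq1 hlo hhi hn1 ha2 ⊢
  clear hC hF1 hF2 hdiv hnear hy hnorm
  obtain ⟨hn1, hn2⟩ := abs_le.mp hn1
  obtain ⟨ha1, ha1'⟩ := abs_le.mp ha1
  obtain ⟨ha2, ha2'⟩ := abs_le.mp ha2
  have hv1 : 1 - δ ≤ v := by
    rw [← Real.rpow_le_rpow_iff (by linarith) hw hq0]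
    have := Real.rpow_le_rpow_of_exponent_ge (x := 1 - δ) (by linarith) (by linarith) hq1.le
    rw [Real.rpow_one] at this
    linarith
  have hv2 : v ≤ 1 + δ := by
    rw [← Real.rpow_le_rpow_iff hw (by linarith) hq0]
    have := Real.rpow_le_rpow_of_exponent_le (x := 1 + δ) (by linarith) hq1.le
    rw [Real.rpow_one] at this
    linarith
  have ha3 : (1 - 2 * δ) ^ q ≤ a ^ q := Real.rpow_le_rpow (by linarith) (by linarith) hq0.le
  have ha4 : a ^ q ≤ (1 + 2 * δ) ^ q := Real.rpow_le_rpow ha0 (by linarith) hq0.le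
  have hτq : 0 < τ ^ q := Real.rpow_pos_of_pos ht0' q
  have hs : (((1 - 2 * δ) ^ q - δ) ^ (1 / q)) ^ q = (1 - 2 * δ) ^ q - δ := by
    rw [← Real.rpow_mul hlo.le, one_div_mul_cancel hq0.ne', Real.rpow_one]
  have hs0 : 0 < ((1 - 2 * δ) ^ q - δ) ^ (1 / q) := by positivity
  have hD0 : 0 < D := by linarith
  constructor
  · rw [← Real.rpow_le_rpow_iff (by positivity) hN0 hq0, Real.mul_rpow hs0.le ht0'.le, hs]
    have := mul_le_mul_of_nonneg_right ha3 hτq.le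
    linarith
  · rw [← Real.rpow_le_rpow_iff hN0 (by positivity) hq0, Real.mul_rpow (by positivity) ht0'.le,
      Real.mul_rpow hD0.le hs0.le, hs]
    have := mul_le_mul_of_nonneg_right ha4 hτq.le
    have := mul_le_mul_of_nonneg_right hhi hτq.le
    linarith

end Crest.Agent.R232
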