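import Mathlib

set_option autoImplicit false

namespace Crest.Agent.R232

open Finset

theorem exists_le_wavg {Ω : Type} [Fintype Ω] (ν f : Ω → ℝ) (h0 : ∀ ω, 0 ≤ ν ω)
    (h1 : ∑ ω, ν ω = 1) {c : ℝ} (h : ∑ ω, ν ω * f ω ≤ c) : ∃ ω, f ω ≤ c := by
  by_contra hc
  push Not at hc
  obtain ⟨ω₀, hω₀⟩ : ∃ ω, ν ω ≠ 0 := by
    by_contra h2
    push Not at h2
    simp [h2] at h1
  have : ∑ ω, ν ω * c < ∑ ω, ν ω * f ω :=
    sum_lt_sum (fun ω _ => mul_le_mul_of_nonneg_left (hc ω).le (h0 ω))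
      ⟨ω₀, mem_univ _, mul_lt_mul_of_pos_left (hc ω₀) (lt_of_le_of_ne (h0 ω₀) hω₀.symm)⟩
  rw [← sum_mul, h1, one_mul] at this
  linarith

/-- Greedy (derandomised) Hoeffding bound. -/
theorem greedy_sample {E Ω : Type} [Fintype E] [Fintype Ω] (ν : Ω → ℝ) (h0 : ∀ ω, 0 ≤ ν ω)
    (h1 : ∑ ω, ν ω = 1) (Y : E → Ω → ℝ) {η : ℝ} (hη : η ≤ 1) (hY : ∀ e ω, |Y e ω| ≤ η)
    (hm : ∀ e, ∑ ω, ν ω * Y e ω = 0) (d : ℕ) :
    ∃ ω : Fin d → Ω, ∑ e, Real.exp (∑ k, Y e (ω k)) ≤ Fintype.card E * Real.exp (d * η ^ 2) := by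
  induction d with
  | zero => exact ⟨Fin.elim0, by simp⟩
  | succ d ih =>
    obtain ⟨ω, hω⟩ := ih
    have key : ∀ e, ∑ x, ν x * Real.exp (Y e x) ≤ Real.exp (η ^ 2) := by
      intro e
      have a1 : ∀ x, ν x * Real.exp (Y e x) ≤ ν x * (1 + η ^ 2) + ν x * Y e x := fun x => by
        have b1 := (abs_le.mp (Real.abs_exp_sub_one_sub_id_le ((hY e x).trans hη))).2
        have b2 : Y e x ^ 2 ≤ η ^ 2 := by
          rw [← sq_abs]; exact pow_le_pow_left₀ (abs_nonneg _) (hY e x) 2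
        rw [← mul_add]
        exact mul_le_mul_of_nonneg_left (by linarith) (h0 x)
      refine (sum_le_sum fun x _ => a1 x).trans ?_
      rw [sum_add_distrib, hm e, ← sum_mul, h1]
      linarith [Real.add_one_le_exp (η ^ 2)]
    obtain ⟨x, hx⟩ := exists_le_wavg ν
      (fun x => ∑ e, Real.exp (∑ k, Y e (ω k)) * Real.exp (Y e x)) h0 h1
      (c := (∑ e, Real.exp (∑ k, Y e (ω k))) * Real.exp (η ^ 2)) (by
        simp_rw [mul_sum]
        rw [sum_comm, sum_mul]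
        refine sum_le_sum fun e _ => ?_
        simp_rw [mul_left_comm (ν _)]
        rw [← mul_sum]
        exact mul_le_mul_of_nonneg_left (key e) (Real.exp_pos _).le)
    refine ⟨Fin.cons x ω, ?_⟩
    simp only [Fin.sum_univ_succ, Fin.cons_zero, Fin.cons_succ, Real.exp_add]
    simp_rw [mul_comm (Real.exp (Y _ x))]
    refine hx.trans ?_
    push_cast
    rw [add_mul, one_mul, Real.exp_add, ← mul_assoc]
    exact mul_le_mul_of_nonneg_right hω (Real.exp_pos _).le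

/-- Importance sampling. -/
theorem importance_sample {E Ω : Type} [Fintype E] [Fintype Ω] (ν : Ω → ℝ) (h0 : ∀ ω, 0 ≤ ν ω)
    (h1 : ∑ ω, ν ω = 1) (V : E → Ω → ℝ) (φ : Ω → ℝ) (hV0 : ∀ e ω, 0 ≤ V e ω)
    (hV : ∀ e ω, V e ω ≤ φ ω) (hφ : ∀ ω, 0 < φ ω) {B ε R : ℝ} (hB : ∑ ω, ν ω * φ ω ≤ B)
    (hε : 0 < ε) (hεB : ε ≤ B) (hR0 : 0 ≤ R) (hR : (Fintype.card E : ℝ) ≤ Real.exp R) {d : ℕ}
    (hd : 4 * B ^ 2 * (R + 1) / ε ^ 2 ≤ d) :
    ∃ (ω : Fin d → Ω) (lam : Fin d → ℝ), (∀ k, 0 ≤ lam k) ∧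
      ∀ e, |∑ k, lam k * V e (ω k) - ∑ x, ν x * V e x| ≤ ε := by
  have hB0 : 0 < B := by linarith
  have hd0 : (0 : ℝ) < d := lt_of_lt_of_le (by positivity) hd
  set Φ := ∑ ω, ν ω * φ ω with hΦ
  have hΦ0 : 0 < Φ := by
    by_contra hc
    obtain ⟨x, hx⟩ := exists_le_wavg ν φ h0 h1 (not_lt.mp hc)
    linarith [hφ x]
  set s := ε / (2 * B ^ 2) with hs
  have hs0 : 0 < s := by positivity
  set mE : E → ℝ := fun e => ∑ x, ν x * V e x with hmE
  have hm0 : ∀ e, 0 ≤ mE e := fun e => sum_nonneg fun x _ => mul_nonneg (h0 x) (hV0 e x)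
  have hm1 : ∀ e, mE e ≤ B := fun e =>
    (sum_le_sum fun x _ => mul_le_mul_of_nonneg_left (hV e x) (h0 x)).trans hB
  have hX0 : ∀ e x, 0 ≤ Φ / φ x * V e x := fun e x =>
    mul_nonneg (div_nonneg hΦ0.le (hφ x).le) (hV0 e x)
  have hX1 : ∀ e x, Φ / φ x * V e x ≤ B := fun e x => by
    refine le_trans ?_ hB
    calc Φ / φ x * V e x ≤ Φ / φ x * φ x :=
          mul_le_mul_of_nonneg_left (hV e x) (div_nonneg hΦ0.le (hφ x).le)
      _ = Φ := div_mul_cancel₀ _ (hφ x).ne'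
  have hν1 : ∑ x, ν x * φ x / Φ = 1 := by rw [← sum_div, div_self hΦ0.ne']
  have hmean : ∀ e, ∑ x, ν x * φ x / Φ * (Φ / φ x * V e x - mE e) = 0 := fun e => by
    simp_rw [mul_sub]
    rw [sum_sub_distrib, ← sum_mul, hν1, one_mul, sub_eq_zero]
    refine sum_congr rfl fun x _ => ?_
    have := (hφ x).ne'
    field_simp
  obtain ⟨ω, hω⟩ := greedy_sample (E := E × Bool) (fun x => ν x * φ x / Φ)
    (fun x => div_nonneg (mul_nonneg (h0 x) (hφ x).le) hΦ0.le) hν1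
    (fun e x => (if e.2 then s else -s) * (Φ / φ x * V e.1 x - mE e.1)) (η := s * B)
    (by rw [hs, div_mul_eq_mul_div, div_le_one (by positivity)]; nlinarith)
    (fun e x => by
      rw [abs_mul]
      refine mul_le_mul (by split_ifs <;> simp [abs_of_pos hs0]) ?_ (abs_nonneg _) hs0.le
      rw [abs_le]
      constructor <;> linarith [hX0 e.1 x, hX1 e.1 x, hm0 e.1, hm1 e.1])
    (fun e => by
      simp_rw [mul_left_comm (ν _ * φ _ / Φ)]
      rw [← mul_sum, hmean, mul_zero]) d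
  refine ⟨ω, fun k => Φ / φ (ω k) / d, fun k => div_nonneg (div_nonneg hΦ0.le (hφ _).le) hd0.le,
    fun e => ?_⟩
  set S := ∑ k, (Φ / φ (ω k) * V e (ω k) - mE e) with hS
  have hbd : ∀ b : Bool, (if b then s else -s) * S ≤ R + 1 + d * (s * B) ^ 2 := fun b => by
    have a1 := (single_le_sum (f := fun e : E × Bool =>
      Real.exp (∑ k, (if e.2 then s else -s) * (Φ / φ (ω k) * V e.1 (ω k) - mE e.1)))
      (fun _ _ => (Real.exp_pos _).le) (mem_univ (e, b))).trans hω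
    simp only [← mul_sum, ← hS] at a1
    rw [← Real.exp_le_exp]
    refine a1.trans ?_
    rw [Real.exp_add, Real.exp_add]
    refine mul_le_mul_of_nonneg_right ?_ (Real.exp_pos _).le
    rw [Fintype.card_prod, Fintype.card_bool]
    push_cast
    exact mul_le_mul hR (by linarith [Real.add_one_le_exp 1]) (by norm_num) (Real.exp_pos _).le
  have a2 := hbd true
  have a3 := hbd false
  simp only [if_true, Bool.false_eq_true, if_false] at a2 a3
  have e1 : ∑ k, Φ / φ (ω k) / d * V e (ω k) - mE e = S / d := by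
    rw [hS, sum_sub_distrib, sum_const, card_univ, Fintype.card_fin, nsmul_eq_mul, sub_div,
      mul_div_cancel_left₀ _ hd0.ne', sum_div]
    congr 1
    exact sum_congr rfl fun k _ => by ring
  show |∑ k, Φ / φ (ω k) / d * V e (ω k) - mE e| ≤ ε
  rw [e1, abs_div, abs_of_pos hd0, div_le_iff₀ hd0]
  have a4 : R + 1 + d * (s * B) ^ 2 ≤ s * (ε * d) := by
    rw [div_le_iff₀ (by positivity)] at hd
    have e2 : s * (ε * d) = d * ε ^ 2 / (4 * B ^ 2) + d * (s * B) ^ 2 := by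
      rw [hs]; field_simp; ring
    have : R + 1 ≤ d * ε ^ 2 / (4 * B ^ 2) := by
      rw [le_div_iff₀ (by positivity)]; linarith
    linarith
  rw [abs_le]
  constructor
  · have : s * (-S) ≤ s * (ε * d) := by linarith
    linarith [le_of_mul_le_mul_left this hs0]
  · exact le_of_mul_le_mul_left (a2.trans a4) hs0

end Crest.Agent.R232
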