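import Crest.Agent.R232.Comm

/-! Minimax, weighted norms, tent functions. -/

set_option autoImplicit false

namespace Crest.Agent.R232
open Finset

theorem minimax {E : Type*} [Fintype E] [DecidableEq E] [Nonempty E] (𝒦 : Set (E → ℝ))
    (hconv : Convex ℝ 𝒦) (h0 : ∀ v ∈ 𝒦, ∀ e, 0 ≤ v e)
    (h : ∀ π : E → ℝ, (∀ e, 0 < π e) → ∑ e, π e = 1 → ∃ v ∈ 𝒦, ∑ e, π e * v e ≤ 2) :
    ∃ v ∈ 𝒦, ∀ e, v e < 3 := by
  by_contra hcon
  push Not at hcon
  have hO : Convex ℝ {v : E → ℝ | ∀ e, v e < 3} := by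
    have : {v : E → ℝ | ∀ e, v e < 3} = Set.pi Set.univ (fun _ => Set.Iio 3) := by
      ext v; simp
    rw [this]
    exact convex_pi fun _ _ => convex_Iio 3
  have hO2 : IsOpen {v : E → ℝ | ∀ e, v e < 3} := by
    have : {v : E → ℝ | ∀ e, v e < 3} = Set.pi Set.univ (fun _ => Set.Iio 3) := by
      ext v; simp
    rw [this]
    exact isOpen_set_pi Set.finite_univ fun _ _ => isOpen_Iio
  obtain ⟨f, u, hf1, hf2⟩ := geometric_hahn_banach_open hO hO2 hconv (by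
    rw [Set.disjoint_left]
    intro v hv hv'
    obtain ⟨e, he⟩ := hcon v hv'
    exact absurd (hv e) (not_lt.mpr he))
  obtain ⟨lam, hlam⟩ : ∃ lam : E → ℝ, lam = fun e => f (Pi.single e 1) := ⟨_, rfl⟩
  have hf : ∀ v : E → ℝ, f v = ∑ e, lam e * v e := by
    intro v
    conv_lhs => rw [pi_eq_sum_univ' v]
    rw [map_sum, hlam]
    refine sum_congr rfl fun e _ => ?_
    rw [map_smul, smul_eq_mul, mul_comm]
  have hu0 : 0 < u := by
    have := hf1 0 (fun e => by norm_num)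
    simpa using this
  have hlam0 : ∀ e, 0 ≤ lam e := by
    intro e
    by_contra hneg
    push Not at hneg
    have h1 := hf1 (Pi.single e (u / lam e)) (fun e' => by
      by_cases he : e' = e
      · subst he
        simp only [Pi.single_eq_same]
        have := div_neg_of_pos_of_neg hu0 hneg
        linarith
      · simp [he])
    rw [hf, sum_eq_single e] at h1
    · rw [Pi.single_eq_same, mul_div_cancel₀ _ hneg.ne] at h1
      exact lt_irrefl _ h1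
    · intro e' _ he; simp [he]
    · simp
  obtain ⟨Λ, hΛ⟩ : ∃ Λ, Λ = ∑ e, lam e := ⟨_, rfl⟩
  have hΛu : Λ * (11 / 4) < u := by
    have := hf1 (fun _ => 11 / 4) (fun e => by norm_num)
    rwa [hf, ← sum_mul, ← hΛ] at this
  obtain ⟨n, hn⟩ : ∃ n : ℝ, n = Fintype.card E := ⟨_, rfl⟩
  have hn0 : 0 < n := by rw [hn]; exact_mod_cast Fintype.card_pos
  have hΛ0 : 0 < Λ := by
    rcases (hΛ ▸ sum_nonneg fun e _ => hlam0 e : 0 ≤ Λ).eq_or_lt with h1 | h1
    · obtain ⟨v, hv, -⟩ := h (fun _ => 1 / n) (fun _ => by positivity) (by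
        rw [sum_const, card_univ, nsmul_eq_mul, ← hn]; field_simp)
      have h2 := hf2 v hv
      have h3 := (sum_eq_zero_iff_of_nonneg (fun e _ => hlam0 e)).mp (hΛ.symm.trans h1.symm)
      rw [hf, sum_eq_zero (fun e he => by rw [h3 e he, zero_mul])] at h2
      linarith
    · exact h1
  obtain ⟨v, hv, hv2⟩ := h (fun e => 4 / 5 * (lam e / Λ) + 1 / 5 / n)
    (fun e => by have := hlam0 e; positivity) (by
      rw [sum_add_distrib, ← mul_sum, ← sum_div, ← hΛ, sum_const, card_univ, nsmul_eq_mul, ← hn]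
      field_simp
      norm_num)
  have h2 := hf2 v hv
  rw [hf] at h2
  have h3 : 4 / 5 * ((∑ e, lam e * v e) / Λ) ≤ 2 := by
    refine le_trans ?_ hv2
    rw [sum_div, mul_sum]
    refine sum_le_sum fun e _ => ?_
    have : 0 ≤ 1 / 5 / n * v e := mul_nonneg (by positivity) (h0 v hv e)
    have e1 : 4 / 5 * (lam e * v e / Λ) = 4 / 5 * (lam e / Λ) * v e := by ring
    rw [e1, add_mul]
    linarith
  have h4 : (∑ e, lam e * v e) / Λ ≤ 5 / 2 := by linarith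
  rw [div_le_iff₀ hΛ0] at h4
  linarith

section wn
variable {ι : Type*} [Fintype ι] {p : ℝ} {ν : ι → ℝ}

lemma wn_inner_nonneg (hν : ∀ i, 0 ≤ ν i) (a : ι → ℝ) : 0 ≤ ∑ i, ν i * |a i| ^ p :=
  sum_nonneg fun i _ => mul_nonneg (hν i) (by positivity)

lemma wn_nonneg (hν : ∀ i, 0 ≤ ν i) (a : ι → ℝ) : 0 ≤ wn p ν a :=
  Real.rpow_nonneg (wn_inner_nonneg hν a) _

lemma wn_rpow (hp : 0 < p) (hν : ∀ i, 0 ≤ ν i) (a : ι → ℝ) :
    wn p ν a ^ p = ∑ i, ν i * |a i| ^ p := by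
  unfold wn
  rw [← Real.rpow_mul (wn_inner_nonneg hν a), one_div_mul_cancel hp.ne', Real.rpow_one]

lemma wn_add_le (hp : 1 ≤ p) (hν : ∀ i, 0 ≤ ν i) (a b : ι → ℝ) :
    wn p ν (fun i => a i + b i) ≤ wn p ν a + wn p ν b := by
  have hp0 : 0 < p := by linarith
  have key : ∀ (x : ℝ) i, ν i * |x| ^ p = |ν i ^ (1 / p) * x| ^ p := by
    intro x i
    rw [abs_mul, Real.mul_rpow (abs_nonneg _) (abs_nonneg _),
      abs_of_nonneg (Real.rpow_nonneg (hν i) _), ← Real.rpow_mul (hν i),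
      one_div_mul_cancel hp0.ne', Real.rpow_one]
  unfold wn
  simp_rw [key, mul_add]
  exact Real.Lp_add_le univ _ _ hp

lemma wn_mul (hp : 0 < p) (hν : ∀ i, 0 ≤ ν i) (c : ℝ) (a : ι → ℝ) :
    wn p ν (fun i => c * a i) = |c| * wn p ν a := by
  unfold wn
  have : ∑ i, ν i * |c * a i| ^ p = |c| ^ p * ∑ i, ν i * |a i| ^ p := by
    rw [mul_sum]
    refine sum_congr rfl fun i _ => ?_
    rw [abs_mul, Real.mul_rpow (abs_nonneg _) (abs_nonneg _)]; ring
  rw [this, Real.mul_rpow (by positivity) (wn_inner_nonneg hν a), ← Real.rpow_mul (abs_nonneg _),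
    mul_one_div_cancel hp.ne', Real.rpow_one]

lemma wn_le_of (hp : 0 < p) (hν : ∀ i, 0 ≤ ν i) (a : ι → ℝ) (b : ℝ) (hb : 0 ≤ b)
    (h : ∑ i, ν i * |a i| ^ p ≤ b ^ p) : wn p ν a ≤ b := by
  rw [← wn_rpow hp hν] at h
  exact (Real.rpow_le_rpow_iff (wn_nonneg hν a) hb hp).mp h

lemma wn_sub_le (hp : 1 ≤ p) (hν : ∀ i, 0 ≤ ν i) (a b : ι → ℝ) :
    |wn p ν a - wn p ν b| ≤ wn p ν (fun i => a i - b i) := by
  have h1 := wn_add_le hp hν (fun i => a i - b i) b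
  have h2 := wn_add_le hp hν (fun i => -1 * (a i - b i)) a
  rw [wn_mul (by linarith) hν] at h2
  simp only [sub_add_cancel] at h1
  have e : (fun i => -1 * (a i - b i) + a i) = b := by ext i; ring
  rw [e] at h2
  simp only [abs_neg, abs_one, one_mul] at h2
  rw [abs_le]
  constructor <;> linarith

end wn

lemma conv_bound {p : ℝ} (hp : 1 ≤ p) (m S : ℕ) (Δ : ℕ → ℕ → ℝ) (N : ℕ → ℝ) (b : ℝ)
    (hΔ : ∀ σ, ∑ l ∈ range m, |Δ l σ| ^ p ≤ b) :
    ∑ l ∈ range m, |∑ σ ∈ range S, Δ l σ * N σ| ^ p ≤ b * (∑ σ ∈ range S, |N σ|) ^ p := by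
  have hp0 : 0 < p := by linarith
  obtain ⟨T, hT⟩ : ∃ T, T = ∑ σ ∈ range S, |N σ| := ⟨_, rfl⟩
  have hT0 : 0 ≤ T := hT ▸ sum_nonneg fun σ _ => abs_nonneg _
  have h1 : ∀ l, |∑ σ ∈ range S, Δ l σ * N σ| ^ p ≤
      T ^ (p - 1) * ∑ σ ∈ range S, |N σ| * |Δ l σ| ^ p := by
    intro l
    have h2 := Real.inner_le_weight_mul_Lp_of_nonneg (range S) hp (fun σ => |N σ|)
      (fun σ => |Δ l σ|) (fun σ => abs_nonneg _) (fun σ => abs_nonneg _)
    rw [← hT] at h2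
    have h3 : |∑ σ ∈ range S, Δ l σ * N σ| ≤ ∑ σ ∈ range S, |N σ| * |Δ l σ| := by
      refine (abs_sum_le_sum_abs _ _).trans (le_of_eq ?_)
      exact sum_congr rfl fun σ _ => by rw [abs_mul, mul_comm]
    have hs : 0 ≤ ∑ σ ∈ range S, |N σ| * |Δ l σ| ^ p := sum_nonneg fun σ _ => by positivity
    refine (Real.rpow_le_rpow (abs_nonneg _) (h3.trans h2) hp0.le).trans (le_of_eq ?_)
    rw [Real.mul_rpow (by positivity) (by positivity), ← Real.rpow_mul hT0, ← Real.rpow_mul hs,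
      inv_mul_cancel₀ hp0.ne', Real.rpow_one]
    congr 2
    field_simp
  refine (sum_le_sum fun l _ => h1 l).trans ?_
  rw [← mul_sum, sum_comm, ← hT, ← rpow_mul_self T p hT0 hp0, mul_left_comm]
  refine mul_le_mul_of_nonneg_left ?_ (by positivity)
  rw [hT, mul_sum]
  refine sum_le_sum fun σ _ => ?_
  rw [← mul_sum, mul_comm]
  exact mul_le_mul_of_nonneg_right (hΔ σ) (abs_nonneg _)

lemma shift_sum (φ : ℕ → ℝ) (n : ℕ) (h0 : φ 0 = 0) (hn : ∀ i, n ≤ i → φ i = 0) (j m : ℕ)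
    (hm : j + n ≤ m) : ∑ l ∈ range m, φ (l - j) = ∑ i ∈ range n, φ i := by
  obtain ⟨k, rfl⟩ := Nat.exists_eq_add_of_le (le_trans (Nat.le_add_right j n) hm)
  rw [sum_range_add, sum_eq_zero, zero_add]
  · simp only [add_tsub_cancel_left]
    symm
    refine sum_subset (range_subset_range.mpr (by omega)) fun i _ hi => hn i ?_
    simpa using hi
  · intro l hl
    rw [Nat.sub_eq_zero_of_le (mem_range.mp hl).le, h0]

lemma exists_tent (p : ℝ) (hp : 1 ≤ p) (L : ℕ) (hL : 1 ≤ L) : ∃ κ : ℕ → ℝ,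
    (∀ i, 0 ≤ κ i) ∧ (∀ i, κ i ≤ 1) ∧ κ 0 = 0 ∧ (∀ i, 4 * L ≤ i → κ i = 0) ∧
    (∀ j m, j + 4 * L ≤ m → ∑ l ∈ range m, κ (l - j) ^ p = 1) ∧
    (∀ σ m, ∑ l ∈ range m, |κ (l - (σ + 1)) - κ (l - σ)| ^ p ≤ (2 / L) ^ p) := by
  have hp0 : 0 < p := by linarith
  have hL0 : (0 : ℝ) < L := by exact_mod_cast hL
  obtain ⟨T, hT⟩ : ∃ T : ℕ → ℕ, T = fun i => min i (4 * L - i) := ⟨_, rfl⟩
  have hTi : ∀ i, T i = min i (4 * L - i) := fun i => by rw [hT]
  obtain ⟨Γ, hΓ⟩ : ∃ Γ, Γ = ∑ i ∈ range (4 * L), (T i : ℝ) ^ p := ⟨_, rfl⟩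
  have hΓL : 2 * L * (L : ℝ) ^ p ≤ Γ := by
    have h1 : ∑ i ∈ Ico L (3 * L), (L : ℝ) ^ p ≤ ∑ i ∈ Ico L (3 * L), (T i : ℝ) ^ p := by
      refine sum_le_sum fun i hi => Real.rpow_le_rpow hL0.le ?_ hp0.le
      rw [mem_Ico] at hi
      have : L ≤ T i := by rw [hTi]; omega
      exact_mod_cast this
    rw [sum_const, Nat.card_Ico, nsmul_eq_mul, show 3 * L - L = 2 * L by omega] at h1
    push_cast at h1
    refine h1.trans (hΓ ▸ sum_le_sum_of_subset_of_nonneg ?_ fun i _ _ => by positivity)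
    intro i hi
    rw [mem_Ico] at hi
    rw [mem_range]; omega
  have hΓ0 : 0 < Γ := lt_of_lt_of_le (by positivity) hΓL
  obtain ⟨c, hc⟩ : ∃ c, c = Γ⁻¹ ^ (1 / p) := ⟨_, rfl⟩
  have hc0 : 0 < c := by rw [hc]; positivity
  have hcp : c ^ p = Γ⁻¹ := by
    rw [hc, ← Real.rpow_mul (by positivity), one_div_mul_cancel hp0.ne', Real.rpow_one]
  have hT0 : T 0 = 0 := by rw [hTi]; omega
  have hT4 : ∀ i, 4 * L ≤ i → T i = 0 := fun i hi => by rw [hTi]; omega
  have hsum : ∑ i ∈ range (4 * L), (c * T i) ^ p = 1 := by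
    simp_rw [Real.mul_rpow hc0.le (Nat.cast_nonneg _)]
    rw [← mul_sum, ← hΓ, hcp, inv_mul_cancel₀ hΓ0.ne']
  refine ⟨fun i => c * T i, fun i => by positivity, fun i => ?_, by simp [hT0],
    fun i hi => by simp [hT4 i hi], fun j m hm => ?_, fun σ m => ?_⟩
  · by_cases hi : 4 * L ≤ i
    · simp [hT4 i hi]
    · have h1 : (c * T i) ^ p ≤ 1 ^ p := by
        rw [Real.one_rpow, ← hsum]
        exact single_le_sum (f := fun i => (c * T i) ^ p) (fun i _ => by positivity)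
          (mem_range.mpr (by omega))
      exact (Real.rpow_le_rpow_iff (by positivity) (by norm_num) hp0).mp h1
  · rw [← hsum]
    exact shift_sum (fun i => (c * T i) ^ p) (4 * L) (by simp [hT0, Real.zero_rpow hp0.ne'])
      (fun i hi => by simp [hT4 i hi, Real.zero_rpow hp0.ne']) j m hm
  · have h1 : ∀ l, |c * T (l - (σ + 1)) - c * T (l - σ)| ^ p ≤
        if l ∈ Ioc σ (σ + 4 * L) then c ^ p else 0 := by
      intro l
      split_ifs with hl
      · refine Real.rpow_le_rpow (abs_nonneg _) ?_ hp0.le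
        rw [← mul_sub, abs_mul, abs_of_pos hc0]
        refine mul_le_of_le_one_right hc0.le ?_
        have h2 : T (l - (σ + 1)) ≤ T (l - σ) + 1 := by rw [hTi, hTi]; omega
        have h3 : T (l - σ) ≤ T (l - (σ + 1)) + 1 := by rw [hTi, hTi]; omega
        have h2' : (T (l - (σ + 1)) : ℝ) ≤ T (l - σ) + 1 := by exact_mod_cast h2
        have h3' : (T (l - σ) : ℝ) ≤ T (l - (σ + 1)) + 1 := by exact_mod_cast h3
        rw [abs_le]; constructor <;> linarith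
      · have : T (l - (σ + 1)) = T (l - σ) := by
          rw [mem_Ioc] at hl
          rw [hTi, hTi]; omega
        rw [this, sub_self, abs_zero, Real.zero_rpow hp0.ne']
    refine (sum_le_sum fun l _ => h1 l).trans ?_
    rw [← sum_filter, sum_const, nsmul_eq_mul]
    have h2 : ((range m).filter (fun l => l ∈ Ioc σ (σ + 4 * L))).card ≤ 4 * L := by
      refine le_trans (card_le_card (t := Ioc σ (σ + 4 * L)) fun l hl => (mem_filter.mp hl).2) ?_
      simp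
    have h2' : (((range m).filter (fun l => l ∈ Ioc σ (σ + 4 * L))).card : ℝ) ≤ 4 * L := by
      exact_mod_cast h2
    refine (mul_le_mul_of_nonneg_right h2' (by positivity)).trans ?_
    rw [hcp, Real.div_rpow (by norm_num) hL0.le, ← div_eq_mul_inv, div_le_div_iff₀ hΓ0
      (by positivity)]
    have h3 : (2 : ℝ) ≤ 2 ^ p := by
      conv_lhs => rw [← Real.rpow_one 2]
      exact Real.rpow_le_rpow_of_exponent_le (by norm_num) hp
    have h4 := mul_le_mul h3 hΓL (by positivity) (by positivity)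
    linarith

lemma exists_level (u : ℝ) : ∃ j : ℕ, ∀ σ, σ < j ↔ (2 : ℝ) ^ (σ + 1) ≤ |u| := by
  refine ⟨Nat.log 2 ⌊|u|⌋₊, fun σ => ?_⟩
  have h1 : (2 : ℝ) ^ (σ + 1) ≤ |u| ↔ 2 ^ (σ + 1) ≤ ⌊|u|⌋₊ := by
    rw [Nat.le_floor_iff (abs_nonneg u)]; push_cast; rfl
  rw [h1]
  rcases Nat.eq_zero_or_pos ⌊|u|⌋₊ with h0 | h0
  · rw [h0]; simp
  · rw [← Nat.le_log_iff_pow_le (by norm_num) h0.ne']; rfl

lemma tele (κ : ℕ → ℝ) (u : ℝ) (j S l : ℕ) (hj : ∀ σ, σ < j ↔ (2 : ℝ) ^ (σ + 1) ≤ |u|)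
    (hS : j ≤ S) :
    κ (l - j) * u = κ l * u + ∑ σ ∈ range S, (κ (l - (σ + 1)) - κ (l - σ)) * hi σ u := by
  have h1 : ∑ σ ∈ range S, (κ (l - (σ + 1)) - κ (l - σ)) * hi σ u =
      ∑ σ ∈ range j, (κ (l - (σ + 1)) - κ (l - σ)) * u := by
    symm
    rw [← sum_subset (range_subset_range.mpr hS)]
    · refine sum_congr rfl fun σ hσ => ?_
      unfold hi
      rw [if_pos ((hj σ).mp (mem_range.mp hσ))]
    · intro σ _ hσ
      unfold hi
      rw [if_neg (fun h => hσ (mem_range.mpr ((hj σ).mpr h))), mul_zero]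
  rw [h1, ← sum_mul, sum_range_sub (fun σ => κ (l - σ))]
  simp only [Nat.sub_zero]
  ring

end Crest.Agent.R232
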